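import Vale.Agent.P211.Tr.V0C_0

set_option linter.all false

/-! P211 (helper345): covered boxes, vertex 0, chart C -/

namespace Vale.Agent.P211.H626.Tr0C

open Vale.Agent.P211.H237 Vale.Agent.P211.H626

theorem g0 : F0C.Cov ⟨0, 256, (-511), 384, 0, 65536, 0, 1280⟩ := Fmt7.Cov.sp 16384 c0 c1
theorem g1 : F0C.Cov ⟨0, 256, 384, 511, 0, 65536, 0, 1280⟩ := Fmt7.Cov.sy 469 c2 c3
theorem g2 : F0C.Cov ⟨0, 256, (-511), 511, 0, 65536, 0, 1280⟩ := Fmt7.Cov.sy 384 g0 g1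

end Vale.Agent.P211.H626.Tr0C

namespace Vale.Agent.P211.H626

open Vale.Agent.P211.H237

theorem cov0C : F0C.Cov ⟨0, 256, (-511), 511, 0, 65536, 0, 1280⟩ := Tr0C.g2

end Vale.Agent.P211.H626
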