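import Vale.Agent.P211.H626.D.F0I

set_option linter.all false

/-! P211 (helper345): covered boxes, vertex 0, chart I, part 1 -/

namespace Vale.Agent.P211.H626.Tr0I

open Vale.Agent.P211.H237 Vale.Agent.P211.H626

def c11_0 : F0I.Cov ⟨85, 255, 128, 170, 0, 39645, (-64), 64⟩ :=
  F0I.cov hV0I (.cl (.sp 19822 (.lf 31) (.lf 31))) _ (by decide +kernel)

def c11_1 : F0I.Cov ⟨85, 255, 128, 170, 39645, 118935, (-64), 64⟩ :=
  F0I.cov hV0I (.cl (.sp 79290 (.lf 31) (.lf 31))) _ (by decide +kernel)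

def c11_2 : F0I.Cov ⟨85, 255, 128, 170, 118935, 356807, (-64), 64⟩ :=
  F0I.cov hV0I (.cl (.sp 237871 (.lf 31) (.lf 31))) _ (by decide +kernel)

def c11_3 : F0I.Cov ⟨85, 255, 128, 170, 356807, 1070421, (-64), 64⟩ :=
  F0I.cov hV0I (.cl (.sp 713614 (.lf 31) (.lf 31))) _ (by decide +kernel)

theorem c11 : F0I.Cov ⟨85, 255, 128, 170, 0, 1070421, (-64), 64⟩ :=
  Fmt7.Cov.sp 356807 (Fmt7.Cov.sp 118935 (Fmt7.Cov.sp 39645 c11_0 c11_1) c11_2) c11_3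


def c12 : F0I.Cov ⟨85, 255, 128, 170, 1070421, 3211264, (-64), 64⟩ :=
  F0I.cov hV0I (.cl (.sp 2140842 (.lf 31) (.lf 31))) _ (by decide +kernel)


def c13_0 : F0I.Cov ⟨0, 85, 170, 255, 0, 267605, (-64), 64⟩ :=
  F0I.cov hV0I (.cl (.sp 89201 (.sp 29733 (.lf 31) (.lf 31)) (.lf 31))) _ (by decide +kernel)

def c13_1 : F0I.Cov ⟨0, 85, 170, 255, 267605, 1070421, (-64), 64⟩ :=
  F0I.cov hV0I (.cl (.lf 31)) _ (by decide +kernel)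

def c13_2 : F0I.Cov ⟨0, 85, 170, 255, 1070421, 3211264, (-64), 64⟩ :=
  F0I.cov hV0I (.cl (.lf 31)) _ (by decide +kernel)

theorem c13 : F0I.Cov ⟨0, 85, 170, 255, 0, 3211264, (-64), 64⟩ :=
  Fmt7.Cov.sp 1070421 (Fmt7.Cov.sp 267605 c13_0 c13_1) c13_2


def c14_0 : F0I.Cov ⟨85, 255, 170, 234, 0, 178403, (-64), 64⟩ :=
  F0I.cov hV0I (.cl (.sp 59467 (.sp 29733 (.lf 31) (.lf 31)) (.lf 31))) _ (by decide +kernel)

def c14_1 : F0I.Cov ⟨85, 255, 170, 234, 178403, 535210, (-64), 64⟩ :=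
  F0I.cov hV0I (.cl (.sp 356806 (.lf 31) (.lf 31))) _ (by decide +kernel)

def c14_2 : F0I.Cov ⟨85, 255, 170, 234, 535210, 1605632, (-64), 64⟩ :=
  F0I.cov hV0I (.cl (.sp 1070421 (.lf 31) (.lf 31))) _ (by decide +kernel)

def c14_3 : F0I.Cov ⟨85, 255, 170, 234, 1605632, 3211264, (-64), 64⟩ :=
  F0I.cov hV0I (.cl (.lf 31)) _ (by decide +kernel)

theorem c14 : F0I.Cov ⟨85, 255, 170, 234, 0, 3211264, (-64), 64⟩ :=
  Fmt7.Cov.sp 1605632 (Fmt7.Cov.sp 535210 (Fmt7.Cov.sp 178403 c14_0 c14_1) c14_2) c14_3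


def c15_0 : F0I.Cov ⟨85, 255, 234, 255, 0, 1070421, (-64), 64⟩ :=
  F0I.cov hV0I (.cl (.sp 356807 (.lf 31) (.sp 713614 (.lf 31) (.lf 31)))) _ (by decide +kernel)

def c15_1 : F0I.Cov ⟨85, 255, 234, 255, 1070421, 3211264, (-64), 64⟩ :=
  F0I.cov hV0I (.cl (.lf 31)) _ (by decide +kernel)

theorem c15 : F0I.Cov ⟨85, 255, 234, 255, 0, 3211264, (-64), 64⟩ :=
  Fmt7.Cov.sp 1070421 c15_0 c15_1


end Vale.Agent.P211.H626.Tr0I
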