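import Vale.Agent.P211.Tr.V0I_0
import Vale.Agent.P211.Tr.V0I_1

set_option linter.all false

/-! P211 (helper345): covered boxes, vertex 0, chart I -/

namespace Vale.Agent.P211.H626.Tr0I

open Vale.Agent.P211.H237 Vale.Agent.P211.H626

theorem g0 : F0I.Cov ⟨0, 85, 0, 170, 0, 713614, (-64), 64⟩ := Fmt7.Cov.sp 237871 c0 c1
theorem g1 : F0I.Cov ⟨0, 85, 0, 170, 0, 2140843, (-64), 64⟩ := Fmt7.Cov.sp 713614 g0 c2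
theorem g2 : F0I.Cov ⟨0, 85, 0, 170, 0, 3211264, (-64), 64⟩ := Fmt7.Cov.sp 2140843 g1 c3
theorem g3 : F0I.Cov ⟨85, 255, 0, 64, 0, 19822, (-64), 64⟩ := Fmt7.Cov.sx 170 c4 c5
theorem g4 : F0I.Cov ⟨85, 255, 0, 128, 0, 19822, (-64), 64⟩ := Fmt7.Cov.sy 64 g3 c6
theorem g5 : F0I.Cov ⟨85, 255, 0, 128, 0, 118935, (-64), 64⟩ := Fmt7.Cov.sp 19822 g4 c7
theorem g6 : F0I.Cov ⟨85, 255, 0, 128, 0, 356807, (-64), 64⟩ := Fmt7.Cov.sp 118935 g5 c8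
theorem g7 : F0I.Cov ⟨85, 255, 0, 128, 0, 1070421, (-64), 64⟩ := Fmt7.Cov.sp 356807 g6 c9
theorem g8 : F0I.Cov ⟨85, 255, 0, 128, 0, 3211264, (-64), 64⟩ := Fmt7.Cov.sp 1070421 g7 c10
theorem g9 : F0I.Cov ⟨85, 255, 128, 170, 0, 3211264, (-64), 64⟩ := Fmt7.Cov.sp 1070421 c11 c12
theorem g10 : F0I.Cov ⟨85, 255, 0, 170, 0, 3211264, (-64), 64⟩ := Fmt7.Cov.sy 128 g8 g9
theorem g11 : F0I.Cov ⟨0, 255, 0, 170, 0, 3211264, (-64), 64⟩ := Fmt7.Cov.sx 85 g2 g10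
theorem g12 : F0I.Cov ⟨85, 255, 170, 255, 0, 3211264, (-64), 64⟩ := Fmt7.Cov.sy 234 c14 c15
theorem g13 : F0I.Cov ⟨0, 255, 170, 255, 0, 3211264, (-64), 64⟩ := Fmt7.Cov.sx 85 c13 g12
theorem g14 : F0I.Cov ⟨0, 255, 0, 255, 0, 3211264, (-64), 64⟩ := Fmt7.Cov.sy 170 g11 g13

end Vale.Agent.P211.H626.Tr0I

namespace Vale.Agent.P211.H626

open Vale.Agent.P211.H237

theorem cov0I : F0I.Cov ⟨0, 255, 0, 255, 0, 3211264, (-64), 64⟩ := Tr0I.g14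

end Vale.Agent.P211.H626
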