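import Vale.Agent.P211.H626.D.F0II

set_option linter.all false

/-! P211 (helper345): covered boxes, vertex 0, chart II, part 1 -/

namespace Vale.Agent.P211.H626.Tr0II

open Vale.Agent.P211.H237 Vale.Agent.P211.H626

def c8 : F0II.Cov ⟨0, 168, 223, 255, 1365, 8192, 0, 1024⟩ :=
  F0II.cov hV0II (.cl (.sp 4778 (.lf 15) (.lf 15))) _ (by decide +kernel)


def c9 : F0II.Cov ⟨0, 168, 223, 255, 8192, 65536, 0, 1024⟩ :=
  F0II.cov hV0II (.cl (.sp 36864 (.sp 22528 (.lf 15) (.lf 15)) (.lf 15))) _ (by decide +kernel)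


def c10_0 : F0II.Cov ⟨168, 223, 223, 255, 0, 75, 0, 1024⟩ :=
  F0II.cov hV0II (.cl (.sp 12 (.sp 6 (.lf 15) (.lf 15)) (.lf 15))) _ (by decide +kernel)

def c10_1 : F0II.Cov ⟨168, 223, 223, 255, 75, 455, 0, 1024⟩ :=
  F0II.cov hV0II (.cl (.lf 15)) _ (by decide +kernel)

def c10_2 : F0II.Cov ⟨168, 223, 223, 255, 455, 1820, 0, 1024⟩ :=
  F0II.cov hV0II (.cl (.lf 15)) _ (by decide +kernel)

def c10_3 : F0II.Cov ⟨168, 223, 223, 255, 1820, 3640, 0, 1024⟩ :=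
  F0II.cov hV0II (.cl (.lf 15)) _ (by decide +kernel)

def c10_4 : F0II.Cov ⟨168, 223, 223, 255, 3640, 21845, 0, 1024⟩ :=
  F0II.cov hV0II (.cl (.lf 15)) _ (by decide +kernel)

def c10_5 : F0II.Cov ⟨168, 223, 223, 255, 21845, 65536, 0, 1024⟩ :=
  F0II.cov hV0II (.cl (.lf 15)) _ (by decide +kernel)

theorem c10 : F0II.Cov ⟨168, 223, 223, 255, 0, 65536, 0, 1024⟩ :=
  Fmt7.Cov.sp 21845 (Fmt7.Cov.sp 3640 (Fmt7.Cov.sp 1820 (Fmt7.Cov.sp 455 (Fmt7.Cov.sp 75 c10_0 c10_1) c10_2) c10_3) c10_4) c10_5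


def c11_0 : F0II.Cov ⟨223, 335, 223, 247, 0, 3640, 0, 1024⟩ :=
  F0II.cov hV0II (.cl (.sp 1820 (.lf 15) (.lf 15))) _ (by decide +kernel)

def c11_1 : F0II.Cov ⟨223, 335, 223, 247, 3640, 10922, 0, 1024⟩ :=
  F0II.cov hV0II (.sx 279 (.cl (.lf 15)) (.cl (.lf 15))) _ (by decide +kernel)

def c11_2 : F0II.Cov ⟨223, 335, 223, 247, 10922, 65536, 0, 1024⟩ :=
  F0II.cov hV0II (.cl (.sp 38229 (.lf 15) (.lf 15))) _ (by decide +kernel)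

theorem c11 : F0II.Cov ⟨223, 335, 223, 247, 0, 65536, 0, 1024⟩ :=
  Fmt7.Cov.sp 10922 (Fmt7.Cov.sp 3640 c11_0 c11_1) c11_2


def c12 : F0II.Cov ⟨223, 279, 247, 255, 0, 65536, 0, 1024⟩ :=
  F0II.cov hV0II (.cl (.ex 0)) _ (by decide +kernel)


def c13_0 : F0II.Cov ⟨279, 335, 247, 255, 0, 2123, 0, 1024⟩ :=
  F0II.cov hV0II (.cl (.sp 707 (.sp 353 (.lf 19) (.lf 19)) (.lf 19))) _ (by decide +kernel)

def c13_1 : F0II.Cov ⟨279, 335, 247, 255, 2123, 12743, 0, 1024⟩ :=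
  F0II.cov hV0II (.cl (.sp 7433 (.sp 4778 (.lf 19) (.lf 19)) (.lf 19))) _ (by decide +kernel)

def c13_2 : F0II.Cov ⟨279, 335, 247, 255, 12743, 38230, 0, 1024⟩ :=
  F0II.cov hV0II (.cl (.lf 19)) _ (by decide +kernel)

def c13_3 : F0II.Cov ⟨279, 335, 247, 255, 38230, 57344, 0, 1024⟩ :=
  F0II.cov hV0II (.cl (.lf 19)) _ (by decide +kernel)

theorem c13 : F0II.Cov ⟨279, 335, 247, 255, 0, 57344, 0, 1024⟩ :=
  Fmt7.Cov.sp 38230 (Fmt7.Cov.sp 12743 (Fmt7.Cov.sp 2123 c13_0 c13_1) c13_2) c13_3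


def c14 : F0II.Cov ⟨279, 335, 247, 255, 57344, 65536, 0, 1024⟩ :=
  F0II.cov hV0II (.cl (.lf 19)) _ (by decide +kernel)


def c15_0 : F0II.Cov ⟨335, 447, 223, 255, 0, 1820, 0, 1024⟩ :=
  F0II.cov hV0II (.cl (.lf 15)) _ (by decide +kernel)

def c15_1 : F0II.Cov ⟨335, 447, 223, 255, 1820, 10922, 0, 1024⟩ :=
  F0II.cov hV0II (.cl (.sp 6371 (.lf 15) (.sp 8646 (.lf 15) (.lf 15)))) _ (by decide +kernel)

def c15_2 : F0II.Cov ⟨335, 447, 223, 255, 10922, 32768, 0, 1024⟩ :=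
  F0II.cov hV0II (.cl (.lf 15)) _ (by decide +kernel)

def c15_3 : F0II.Cov ⟨335, 447, 223, 255, 32768, 65536, 0, 1024⟩ :=
  F0II.cov hV0II (.cl (.lf 15)) _ (by decide +kernel)

theorem c15 : F0II.Cov ⟨335, 447, 223, 255, 0, 65536, 0, 1024⟩ :=
  Fmt7.Cov.sp 32768 (Fmt7.Cov.sp 10922 (Fmt7.Cov.sp 1820 c15_0 c15_1) c15_2) c15_3


def c16_0 : F0II.Cov ⟨447, 489, 127, 223, 0, 3640, 0, 1024⟩ :=
  F0II.cov hV0II (.cl (.sp 1820 (.lf 7) (.lf 7))) _ (by decide +kernel)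

def c16_1 : F0II.Cov ⟨447, 489, 127, 223, 3640, 7281, 0, 1024⟩ :=
  F0II.cov hV0II (.cl (.sk 512 (.lf 14) (.lf 9))) _ (by decide +kernel)

def c16_2 : F0II.Cov ⟨447, 489, 127, 223, 7281, 10922, 0, 1024⟩ :=
  F0II.cov hV0II (.cl (.sk 512 (.lf 14) (.lf 9))) _ (by decide +kernel)

theorem c16 : F0II.Cov ⟨447, 489, 127, 223, 0, 10922, 0, 1024⟩ :=
  Fmt7.Cov.sp 3640 c16_0 (Fmt7.Cov.sp 7281 c16_1 c16_2)


end Vale.Agent.P211.H626.Tr0II
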