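import Vale.Agent.P211.H626.D.F0II

set_option linter.all false

/-! P211 (helper345): covered boxes, vertex 0, chart II, part 2 -/

namespace Vale.Agent.P211.H626.Tr0II

open Vale.Agent.P211.H237 Vale.Agent.P211.H626

def c17 : F0II.Cov ⟨447, 489, 223, 255, 0, 10922, 0, 1024⟩ :=
  F0II.cov hV0II (.cl (.sp 3640 (.lf 15) (.sp 7281 (.lf 15) (.lf 15)))) _ (by decide +kernel)


def c18_0 : F0II.Cov ⟨447, 489, 127, 191, 10922, 65536, 0, 1024⟩ :=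
  F0II.cov hV0II (.cl (.sp 26754 (.lf 7) (.sp 46145 (.lf 7) (.ex 1)))) _ (by decide +kernel)

def c18_1 : F0II.Cov ⟨447, 489, 191, 255, 10922, 65536, 0, 1024⟩ :=
  F0II.cov hV0II (.cl (.sp 38229 (.lf 11) (.lf 11))) _ (by decide +kernel)

theorem c18 : F0II.Cov ⟨447, 489, 127, 255, 10922, 65536, 0, 1024⟩ :=
  Fmt7.Cov.sy 191 c18_0 c18_1


def c19_0 : F0II.Cov ⟨489, 510, 127, 255, 0, 10922, 0, 512⟩ :=
  F0II.cov hV0II (.cl (.sp 3640 (.lf 14) (.sp 7281 (.lf 14) (.lf 14)))) _ (by decide +kernel)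

def c19_1 : F0II.Cov ⟨489, 510, 127, 255, 0, 10922, 512, 1024⟩ :=
  F0II.cov hV0II (.cl (.sp 3640 (.lf 9) (.sp 7281 (.lf 9) (.lf 9)))) _ (by decide +kernel)

def c19_2 : F0II.Cov ⟨489, 510, 127, 255, 10922, 21845, 0, 1024⟩ :=
  F0II.cov hV0II (.cl (.lf 7)) _ (by decide +kernel)

theorem c19 : F0II.Cov ⟨489, 510, 127, 255, 0, 21845, 0, 1024⟩ :=
  Fmt7.Cov.sp 10922 (Fmt7.Cov.sk 512 c19_0 c19_1) c19_2


def c20_0 : F0II.Cov ⟨489, 499, 127, 183, 21845, 65536, 0, 1024⟩ :=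
  F0II.cov hV0II (.cl (.sp 43690 (.sp 32767 (.lf 7) (.sp 38228 (.sp 35497 (.lf 7) (.ex 1)) (.ex 1))) (.ex 1))) _ (by decide +kernel)

def c20_1 : F0II.Cov ⟨489, 499, 183, 239, 21845, 65536, 0, 1024⟩ :=
  F0II.cov hV0II (.sp 43690 (.cl (.lf 11)) (.sy 211 (.cl (.ex 1)) (.cl (.lf 14)))) _ (by decide +kernel)

def c20_2 : F0II.Cov ⟨489, 499, 239, 255, 21845, 65536, 0, 1024⟩ :=
  F0II.cov hV0II (.cl (.lf 18)) _ (by decide +kernel)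

theorem c20 : F0II.Cov ⟨489, 499, 127, 255, 21845, 65536, 0, 1024⟩ :=
  Fmt7.Cov.sy 239 (Fmt7.Cov.sy 183 c20_0 c20_1) c20_2


def c21 : F0II.Cov ⟨499, 510, 127, 191, 21845, 27306, 0, 512⟩ :=
  F0II.cov hV0II (.sy 159 (.cl (.lf 14)) (.cl (.lf 16))) _ (by decide +kernel)


def c22_0 : F0II.Cov ⟨499, 507, 127, 148, 27306, 31402, 0, 512⟩ :=
  F0II.cov hV0II (.cl (.ex 1)) _ (by decide +kernel)

def c22_1 : F0II.Cov ⟨499, 507, 148, 170, 27306, 31402, 0, 512⟩ :=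
  F0II.cov hV0II (.sp 29354 (.cl (.lf 15)) (.sx 503 (.cl (.lf 15)) (.cl (.ex 1)))) _ (by decide +kernel)

def c22_2 : F0II.Cov ⟨499, 507, 127, 170, 31402, 35498, 0, 512⟩ :=
  F0II.cov hV0II (.cl (.ex 1)) _ (by decide +kernel)

def c22_3 : F0II.Cov ⟨499, 507, 127, 170, 35498, 43690, 0, 512⟩ :=
  F0II.cov hV0II (.cl (.ex 1)) _ (by decide +kernel)

def c22_4 : F0II.Cov ⟨499, 507, 170, 191, 27306, 31402, 0, 512⟩ :=
  F0II.cov hV0II (.cl (.sk 256 (.lf 34) (.lf 18))) _ (by decide +kernel)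

def c22_5 : F0II.Cov ⟨499, 507, 170, 191, 31402, 43690, 0, 512⟩ :=
  F0II.cov hV0II (.sp 37546 (.sy 180 (.cl (.ex 1)) (.cl (.sp 34474 (.lf 20) (.ex 1)))) (.cl (.ex 1))) _ (by decide +kernel)

theorem c22 : F0II.Cov ⟨499, 507, 127, 191, 27306, 43690, 0, 512⟩ :=
  Fmt7.Cov.sy 170 (Fmt7.Cov.sp 35498 (Fmt7.Cov.sp 31402 (Fmt7.Cov.sy 148 c22_0 c22_1) c22_2) c22_3) (Fmt7.Cov.sp 31402 c22_4 c22_5)


def c23 : F0II.Cov ⟨507, 510, 127, 159, 27306, 34540, 0, 512⟩ :=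
  F0II.cov hV0II (.cl (.ex 1)) _ (by decide +kernel)


def c24_0 : F0II.Cov ⟨507, 510, 159, 167, 27306, 28210, 0, 256⟩ :=
  F0II.cov hV0II (.sp 27758 (.sy 163 (.cl (.ex 1)) (.cl (.lf 31))) (.cl (.ex 1))) _ (by decide +kernel)

def c24_1 : F0II.Cov ⟨507, 510, 159, 167, 27306, 28210, 256, 512⟩ :=
  F0II.cov hV0II (.cl (.lf 16)) _ (by decide +kernel)

def c24_2 : F0II.Cov ⟨507, 510, 159, 167, 28210, 29114, 0, 512⟩ :=
  F0II.cov hV0II (.cl (.ex 1)) _ (by decide +kernel)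

def c24_3 : F0II.Cov ⟨507, 510, 159, 167, 29114, 30923, 0, 512⟩ :=
  F0II.cov hV0II (.cl (.ex 1)) _ (by decide +kernel)

def c24_4 : F0II.Cov ⟨507, 510, 159, 167, 30923, 34540, 0, 512⟩ :=
  F0II.cov hV0II (.cl (.ex 1)) _ (by decide +kernel)

def c24_5 : F0II.Cov ⟨507, 510, 167, 171, 27306, 34540, 0, 512⟩ :=
  F0II.cov hV0II (.cl (.sp 30923 (.sp 29114 (.sk 256 (.sp 28210 (.lf 33) (.ex 1)) (.lf 17)) (.ex 1)) (.ex 1))) _ (by decide +kernel)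

def c24_6 : F0II.Cov ⟨507, 510, 171, 175, 27306, 34540, 0, 512⟩ :=
  F0II.cov hV0II (.cl (.sp 30923 (.sp 29114 (.lf 18) (.sp 30018 (.sk 256 (.ex 1) (.lf 18)) (.ex 1))) (.ex 1))) _ (by decide +kernel)

theorem c24 : F0II.Cov ⟨507, 510, 159, 175, 27306, 34540, 0, 512⟩ :=
  Fmt7.Cov.sy 171 (Fmt7.Cov.sy 167 (Fmt7.Cov.sp 30923 (Fmt7.Cov.sp 29114 (Fmt7.Cov.sp 28210 (Fmt7.Cov.sk 256 c24_0 c24_1) c24_2) c24_3) c24_4) c24_5) c24_6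


def c25_0 : F0II.Cov ⟨507, 510, 175, 191, 27306, 30923, 0, 512⟩ :=
  F0II.cov hV0II (.sy 177 (.cl (.sp 30019 (.lf 19) (.ex 1))) (.cl (.lf 19))) _ (by decide +kernel)

def c25_1 : F0II.Cov ⟨507, 510, 175, 191, 30923, 34540, 0, 512⟩ :=
  F0II.cov hV0II (.sy 183 (.cl (.ex 1)) (.cl (.sp 32731 (.lf 20) (.ex 1)))) _ (by decide +kernel)

theorem c25 : F0II.Cov ⟨507, 510, 175, 191, 27306, 34540, 0, 512⟩ :=
  Fmt7.Cov.sp 30923 c25_0 c25_1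


def c26 : F0II.Cov ⟨507, 510, 127, 191, 34540, 43690, 0, 512⟩ :=
  F0II.cov hV0II (.cl (.ex 1)) _ (by decide +kernel)


def c27 : F0II.Cov ⟨499, 501, 127, 175, 21845, 43690, 512, 1024⟩ :=
  F0II.cov hV0II (.cl (.sp 32767 (.lf 10) (.ex 1))) _ (by decide +kernel)


def c28 : F0II.Cov ⟨501, 510, 127, 141, 21845, 43690, 512, 1024⟩ :=
  F0II.cov hV0II (.cl (.sp 32767 (.sp 27306 (.lf 11) (.ex 1)) (.ex 1))) _ (by decide +kernel)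


def c29 : F0II.Cov ⟨501, 507, 141, 169, 21845, 43690, 512, 1024⟩ :=
  F0II.cov hV0II (.cl (.sp 30893 (.lf 10) (.ex 1))) _ (by decide +kernel)


def c30 : F0II.Cov ⟨507, 510, 141, 169, 21845, 27306, 512, 1024⟩ :=
  F0II.cov hV0II (.cl (.lf 10)) _ (by decide +kernel)


def c31 : F0II.Cov ⟨507, 510, 141, 155, 27306, 32767, 512, 1024⟩ :=
  F0II.cov hV0II (.cl (.sp 30036 (.sp 28671 (.sk 768 (.ex 1) (.lf 10)) (.ex 1)) (.ex 1))) _ (by decide +kernel)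


end Vale.Agent.P211.H626.Tr0II
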