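import Vale.Agent.P211.H626.D.F0II

set_option linter.all false

/-! P211 (helper345): covered boxes, vertex 0, chart II, part 3 -/

namespace Vale.Agent.P211.H626.Tr0II

open Vale.Agent.P211.H237 Vale.Agent.P211.H626

def c32 : F0II.Cov ⟨507, 510, 155, 162, 27306, 32767, 512, 1024⟩ :=
  F0II.cov hV0II (.cl (.sp 30036 (.sp 27988 (.lf 10) (.sp 29012 (.sk 768 (.sp 28500 (.lf 12) (.ex 1)) (.lf 10)) (.ex 1))) (.ex 1))) _ (by decide +kernel)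


def c33_0 : F0II.Cov ⟨507, 508, 162, 169, 27306, 30036, 512, 1024⟩ :=
  F0II.cov hV0II (.cl (.lf 10)) _ (by decide +kernel)

def c33_1 : F0II.Cov ⟨508, 510, 162, 169, 27306, 28671, 512, 1024⟩ :=
  F0II.cov hV0II (.cl (.lf 10)) _ (by decide +kernel)

def c33_2 : F0II.Cov ⟨508, 510, 162, 169, 28671, 30036, 512, 1024⟩ :=
  F0II.cov hV0II (.sy 165 (.cl (.sp 29353 (.sk 768 (.ex 1) (.lf 10)) (.ex 1))) (.cl (.sp 29866 (.sk 768 (.sp 29268 (.lf 12) (.ex 1)) (.lf 10)) (.ex 1)))) _ (by decide +kernel)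

def c33_3 : F0II.Cov ⟨507, 510, 162, 169, 30036, 32767, 512, 1024⟩ :=
  F0II.cov hV0II (.cl (.ex 1)) _ (by decide +kernel)

theorem c33 : F0II.Cov ⟨507, 510, 162, 169, 27306, 32767, 512, 1024⟩ :=
  Fmt7.Cov.sp 30036 (Fmt7.Cov.sx 508 c33_0 (Fmt7.Cov.sp 28671 c33_1 c33_2)) c33_3


def c34 : F0II.Cov ⟨507, 510, 141, 169, 32767, 43690, 512, 1024⟩ :=
  F0II.cov hV0II (.cl (.ex 1)) _ (by decide +kernel)


def c35 : F0II.Cov ⟨501, 508, 169, 175, 21845, 38229, 512, 1024⟩ :=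
  F0II.cov hV0II (.cl (.sp 30037 (.lf 10) (.sp 34133 (.sp 32085 (.sk 768 (.sp 31061 (.lf 12) (.ex 1)) (.lf 10)) (.ex 1)) (.ex 1)))) _ (by decide +kernel)


def c36_0 : F0II.Cov ⟨508, 510, 169, 172, 21845, 38229, 512, 1024⟩ :=
  F0II.cov hV0II (.cl (.sp 30037 (.lf 10) (.sp 34133 (.sp 32085 (.sp 31061 (.sk 768 (.ex 1) (.sp 30549 (.lf 10) (.ex 1))) (.ex 1)) (.ex 1)) (.ex 1)))) _ (by decide +kernel)

def c36_1 : F0II.Cov ⟨508, 510, 172, 175, 21845, 38229, 512, 1024⟩ :=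
  F0II.cov hV0II (.cl (.sp 30037 (.lf 10) (.sp 34133 (.sp 32085 (.sp 31061 (.sk 768 (.ex 1) (.lf 10)) (.ex 1)) (.ex 1)) (.ex 1)))) _ (by decide +kernel)

theorem c36 : F0II.Cov ⟨508, 510, 169, 175, 21845, 38229, 512, 1024⟩ :=
  Fmt7.Cov.sy 172 c36_0 c36_1


def c37 : F0II.Cov ⟨501, 510, 169, 175, 38229, 43690, 512, 1024⟩ :=
  F0II.cov hV0II (.cl (.ex 1)) _ (by decide +kernel)


def c38_0 : F0II.Cov ⟨499, 510, 175, 191, 21845, 31402, 512, 1024⟩ :=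
  F0II.cov hV0II (.cl (.lf 10)) _ (by decide +kernel)

def c38_1 : F0II.Cov ⟨499, 504, 175, 191, 31402, 36181, 512, 1024⟩ :=
  F0II.cov hV0II (.cl (.lf 10)) _ (by decide +kernel)

def c38_2 : F0II.Cov ⟨504, 510, 175, 180, 31402, 36181, 512, 1024⟩ :=
  F0II.cov hV0II (.cl (.sp 33791 (.sp 32596 (.sp 31999 (.sk 768 (.ex 1) (.lf 10)) (.ex 1)) (.ex 1)) (.ex 1))) _ (by decide +kernel)

def c38_3 : F0II.Cov ⟨504, 510, 180, 191, 31402, 36181, 512, 1024⟩ :=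
  F0II.cov hV0II (.sp 32995 (.cl (.lf 10)) (.sy 185 (.cl (.ex 1)) (.cl (.sp 34588 (.lf 11) (.ex 1))))) _ (by decide +kernel)

def c38_4 : F0II.Cov ⟨499, 510, 175, 191, 36181, 40960, 512, 1024⟩ :=
  F0II.cov hV0II (.cl (.ex 1)) _ (by decide +kernel)

def c38_5 : F0II.Cov ⟨499, 510, 175, 191, 40960, 43690, 512, 1024⟩ :=
  F0II.cov hV0II (.cl (.ex 1)) _ (by decide +kernel)

theorem c38 : F0II.Cov ⟨499, 510, 175, 191, 21845, 43690, 512, 1024⟩ :=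
  Fmt7.Cov.sp 40960 (Fmt7.Cov.sp 31402 c38_0 (Fmt7.Cov.sp 36181 (Fmt7.Cov.sx 504 c38_1 (Fmt7.Cov.sy 180 c38_2 c38_3)) c38_4)) c38_5


def c39 : F0II.Cov ⟨499, 510, 127, 191, 43690, 65536, 0, 1024⟩ :=
  F0II.cov hV0II (.cl (.ex 1)) _ (by decide +kernel)


def c40_0 : F0II.Cov ⟨499, 510, 191, 255, 21845, 37837, 0, 1024⟩ :=
  F0II.cov hV0II (.cl (.lf 11)) _ (by decide +kernel)

def c40_1 : F0II.Cov ⟨499, 510, 191, 247, 37837, 65536, 0, 1024⟩ :=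
  F0II.cov hV0II (.sy 219 (.sy 205 (.cl (.ex 1)) (.cl (.sp 51686 (.sp 44761 (.lf 13) (.ex 1)) (.ex 1)))) (.cl (.lf 15))) _ (by decide +kernel)

def c40_2 : F0II.Cov ⟨499, 510, 247, 255, 37837, 65536, 0, 1024⟩ :=
  F0II.cov hV0II (.cl (.lf 19)) _ (by decide +kernel)

theorem c40 : F0II.Cov ⟨499, 510, 191, 255, 21845, 65536, 0, 1024⟩ :=
  Fmt7.Cov.sp 37837 c40_0 (Fmt7.Cov.sy 247 c40_1 c40_2)


end Vale.Agent.P211.H626.Tr0II
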