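import Vale.Agent.P211.Tr.V0II_0
import Vale.Agent.P211.Tr.V0II_1
import Vale.Agent.P211.Tr.V0II_2
import Vale.Agent.P211.Tr.V0II_3

set_option linter.all false

/-! P211 (helper345): covered boxes, vertex 0, chart II -/

namespace Vale.Agent.P211.H626.Tr0II

open Vale.Agent.P211.H237 Vale.Agent.P211.H626

theorem g0 : F0II.Cov ⟨0, 149, 127, 223, 0, 10922, 0, 1024⟩ := Fmt7.Cov.sp 1820 c0 c1
theorem g1 : F0II.Cov ⟨0, 149, 127, 223, 0, 65536, 0, 1024⟩ := Fmt7.Cov.sp 10922 g0 c2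
theorem g2 : F0II.Cov ⟨298, 447, 127, 223, 0, 21845, 0, 1024⟩ := Fmt7.Cov.sp 7281 c4 c5
theorem g3 : F0II.Cov ⟨298, 447, 127, 223, 0, 65536, 0, 1024⟩ := Fmt7.Cov.sp 21845 g2 c6
theorem g4 : F0II.Cov ⟨149, 447, 127, 223, 0, 65536, 0, 1024⟩ := Fmt7.Cov.sx 298 c3 g3
theorem g5 : F0II.Cov ⟨0, 447, 127, 223, 0, 65536, 0, 1024⟩ := Fmt7.Cov.sx 149 g1 g4
theorem g6 : F0II.Cov ⟨0, 168, 223, 255, 0, 8192, 0, 1024⟩ := Fmt7.Cov.sp 1365 c7 c8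
theorem g7 : F0II.Cov ⟨0, 168, 223, 255, 0, 65536, 0, 1024⟩ := Fmt7.Cov.sp 8192 g6 c9
theorem g8 : F0II.Cov ⟨0, 223, 223, 255, 0, 65536, 0, 1024⟩ := Fmt7.Cov.sx 168 g7 c10
theorem g9 : F0II.Cov ⟨279, 335, 247, 255, 0, 65536, 0, 1024⟩ := Fmt7.Cov.sp 57344 c13 c14
theorem g10 : F0II.Cov ⟨223, 335, 247, 255, 0, 65536, 0, 1024⟩ := Fmt7.Cov.sx 279 c12 g9
theorem g11 : F0II.Cov ⟨223, 335, 223, 255, 0, 65536, 0, 1024⟩ := Fmt7.Cov.sy 247 c11 g10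
theorem g12 : F0II.Cov ⟨223, 447, 223, 255, 0, 65536, 0, 1024⟩ := Fmt7.Cov.sx 335 g11 c15
theorem g13 : F0II.Cov ⟨0, 447, 223, 255, 0, 65536, 0, 1024⟩ := Fmt7.Cov.sx 223 g8 g12
theorem g14 : F0II.Cov ⟨0, 447, 127, 255, 0, 65536, 0, 1024⟩ := Fmt7.Cov.sy 223 g5 g13
theorem g15 : F0II.Cov ⟨447, 489, 127, 255, 0, 10922, 0, 1024⟩ := Fmt7.Cov.sy 223 c16 c17
theorem g16 : F0II.Cov ⟨447, 489, 127, 255, 0, 65536, 0, 1024⟩ := Fmt7.Cov.sp 10922 g15 c18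
theorem g17 : F0II.Cov ⟨507, 510, 159, 191, 27306, 34540, 0, 512⟩ := Fmt7.Cov.sy 175 c24 c25
theorem g18 : F0II.Cov ⟨507, 510, 127, 191, 27306, 34540, 0, 512⟩ := Fmt7.Cov.sy 159 c23 g17
theorem g19 : F0II.Cov ⟨507, 510, 127, 191, 27306, 43690, 0, 512⟩ := Fmt7.Cov.sp 34540 g18 c26
theorem g20 : F0II.Cov ⟨499, 510, 127, 191, 27306, 43690, 0, 512⟩ := Fmt7.Cov.sx 507 c22 g19
theorem g21 : F0II.Cov ⟨499, 510, 127, 191, 21845, 43690, 0, 512⟩ := Fmt7.Cov.sp 27306 c21 g20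
theorem g22 : F0II.Cov ⟨507, 510, 155, 169, 27306, 32767, 512, 1024⟩ := Fmt7.Cov.sy 162 c32 c33
theorem g23 : F0II.Cov ⟨507, 510, 141, 169, 27306, 32767, 512, 1024⟩ := Fmt7.Cov.sy 155 c31 g22
theorem g24 : F0II.Cov ⟨507, 510, 141, 169, 21845, 32767, 512, 1024⟩ := Fmt7.Cov.sp 27306 c30 g23
theorem g25 : F0II.Cov ⟨507, 510, 141, 169, 21845, 43690, 512, 1024⟩ := Fmt7.Cov.sp 32767 g24 c34
theorem g26 : F0II.Cov ⟨501, 510, 141, 169, 21845, 43690, 512, 1024⟩ := Fmt7.Cov.sx 507 c29 g25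
theorem g27 : F0II.Cov ⟨501, 510, 127, 169, 21845, 43690, 512, 1024⟩ := Fmt7.Cov.sy 141 c28 g26
theorem g28 : F0II.Cov ⟨501, 510, 169, 175, 21845, 38229, 512, 1024⟩ := Fmt7.Cov.sx 508 c35 c36
theorem g29 : F0II.Cov ⟨501, 510, 169, 175, 21845, 43690, 512, 1024⟩ := Fmt7.Cov.sp 38229 g28 c37
theorem g30 : F0II.Cov ⟨501, 510, 127, 175, 21845, 43690, 512, 1024⟩ := Fmt7.Cov.sy 169 g27 g29
theorem g31 : F0II.Cov ⟨499, 510, 127, 175, 21845, 43690, 512, 1024⟩ := Fmt7.Cov.sx 501 c27 g30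
theorem g32 : F0II.Cov ⟨499, 510, 127, 191, 21845, 43690, 512, 1024⟩ := Fmt7.Cov.sy 175 g31 c38
theorem g33 : F0II.Cov ⟨499, 510, 127, 191, 21845, 43690, 0, 1024⟩ := Fmt7.Cov.sk 512 g21 g32
theorem g34 : F0II.Cov ⟨499, 510, 127, 191, 21845, 65536, 0, 1024⟩ := Fmt7.Cov.sp 43690 g33 c39
theorem g35 : F0II.Cov ⟨499, 510, 127, 255, 21845, 65536, 0, 1024⟩ := Fmt7.Cov.sy 191 g34 c40
theorem g36 : F0II.Cov ⟨489, 510, 127, 255, 21845, 65536, 0, 1024⟩ := Fmt7.Cov.sx 499 c20 g35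
theorem g37 : F0II.Cov ⟨489, 510, 127, 255, 0, 65536, 0, 1024⟩ := Fmt7.Cov.sp 21845 c19 g36
theorem g38 : F0II.Cov ⟨447, 510, 127, 255, 0, 65536, 0, 1024⟩ := Fmt7.Cov.sx 489 g16 g37
theorem g39 : F0II.Cov ⟨0, 510, 127, 255, 0, 65536, 0, 1024⟩ := Fmt7.Cov.sx 447 g14 g38

end Vale.Agent.P211.H626.Tr0II

namespace Vale.Agent.P211.H626

open Vale.Agent.P211.H237

theorem cov0II : F0II.Cov ⟨0, 510, 127, 255, 0, 65536, 0, 1024⟩ := Tr0II.g39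

end Vale.Agent.P211.H626
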