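import Vale.Agent.P211.Tr.V1C_0

set_option linter.all false

/-! P211 (helper345): covered boxes, vertex 1, chart C -/

namespace Vale.Agent.P211.H626.Tr1C

open Vale.Agent.P211.H237 Vale.Agent.P211.H626

theorem g0 : F1C.Cov ⟨0, 256, (-511), 384, 0, 32768, 0, 1280⟩ := Fmt7.Cov.sk 960 c0 c1
theorem g1 : F1C.Cov ⟨0, 256, (-511), 384, 0, 65536, 0, 1280⟩ := Fmt7.Cov.sp 32768 g0 c2
theorem g2 : F1C.Cov ⟨0, 256, 480, 511, 0, 7281, 0, 426⟩ := Fmt7.Cov.sp 1213 c4 c5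
theorem g3 : F1C.Cov ⟨0, 256, 480, 511, 0, 21845, 0, 426⟩ := Fmt7.Cov.sp 7281 g2 c6
theorem g4 : F1C.Cov ⟨0, 256, 480, 511, 0, 65536, 0, 426⟩ := Fmt7.Cov.sp 21845 g3 c7
theorem g5 : F1C.Cov ⟨0, 256, 480, 511, 0, 65536, 0, 1280⟩ := Fmt7.Cov.sk 426 g4 c8
theorem g6 : F1C.Cov ⟨0, 256, 384, 511, 0, 65536, 0, 1280⟩ := Fmt7.Cov.sy 480 c3 g5
theorem g7 : F1C.Cov ⟨0, 256, (-511), 511, 0, 65536, 0, 1280⟩ := Fmt7.Cov.sy 384 g1 g6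

end Vale.Agent.P211.H626.Tr1C

namespace Vale.Agent.P211.H626

open Vale.Agent.P211.H237

theorem cov1C : F1C.Cov ⟨0, 256, (-511), 511, 0, 65536, 0, 1280⟩ := Tr1C.g7

end Vale.Agent.P211.H626
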