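import Vale.Agent.P211.H626.D.F1I

set_option linter.all false

/-! P211 (helper345): covered boxes, vertex 1, chart I, part 1 -/

namespace Vale.Agent.P211.H626.Tr1I

open Vale.Agent.P211.H237 Vale.Agent.P211.H626

def c11_0 : F1I.Cov ⟨63, 127, 0, 170, 1070421, 3211264, (-64), 64⟩ :=
  F1I.cov hV1I (.cl (.sp 2140842 (.lf 31) (.sp 2676053 (.lf 31) (.ex 1)))) _ (by decide +kernel)

def c11_1 : F1I.Cov ⟨127, 255, 0, 170, 1070421, 3211264, (-64), 64⟩ :=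
  F1I.cov hV1I (.cl (.sp 2140842 (.lf 31) (.lf 31))) _ (by decide +kernel)

theorem c11 : F1I.Cov ⟨63, 255, 0, 170, 1070421, 3211264, (-64), 64⟩ :=
  Fmt7.Cov.sx 127 c11_0 c11_1


def c12_0 : F1I.Cov ⟨0, 31, 170, 255, 0, 66901, (-64), 64⟩ :=
  F1I.cov hV1I (.cl (.sp 11150 (.sp 1858 (.lf 31) (.lf 31)) (.lf 31))) _ (by decide +kernel)

def c12_1 : F1I.Cov ⟨31, 143, 170, 255, 0, 66901, (-64), 64⟩ :=
  F1I.cov hV1I (.cl (.sp 16725 (.sp 4181 (.lf 31) (.lf 31)) (.lf 31))) _ (by decide +kernel)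

def c12_2 : F1I.Cov ⟨143, 255, 170, 255, 0, 66901, (-64), 64⟩ :=
  F1I.cov hV1I (.sy 212 (.cl (.lf 31)) (.cl (.lf 31))) _ (by decide +kernel)

theorem c12 : F1I.Cov ⟨0, 255, 170, 255, 0, 66901, (-64), 64⟩ :=
  Fmt7.Cov.sx 31 c12_0 (Fmt7.Cov.sx 143 c12_1 c12_2)


def c13_0 : F1I.Cov ⟨0, 255, 170, 234, 66901, 401408, (-64), 64⟩ :=
  F1I.cov hV1I (.cl (.sp 234154 (.sp 150527 (.lf 31) (.lf 31)) (.lf 31))) _ (by decide +kernel)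

def c13_1 : F1I.Cov ⟨0, 255, 234, 255, 66901, 401408, (-64), 64⟩ :=
  F1I.cov hV1I (.cl (.lf 31)) _ (by decide +kernel)

theorem c13 : F1I.Cov ⟨0, 255, 170, 255, 66901, 401408, (-64), 64⟩ :=
  Fmt7.Cov.sy 234 c13_0 c13_1


def c14_0 : F1I.Cov ⟨0, 255, 170, 255, 401408, 1103872, (-64), 64⟩ :=
  F1I.cov hV1I (.cl (.sp 752640 (.sk 0 (.lf 63) (.lf 63)) (.lf 31))) _ (by decide +kernel)

def c14_1 : F1I.Cov ⟨0, 255, 170, 255, 1103872, 1806336, (-64), 64⟩ :=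
  F1I.cov hV1I (.cl (.lf 31)) _ (by decide +kernel)

def c14_2 : F1I.Cov ⟨0, 255, 170, 255, 1806336, 3211264, (-64), 64⟩ :=
  F1I.cov hV1I (.sx 127 (.cl (.lf 31)) (.cl (.lf 31))) _ (by decide +kernel)

theorem c14 : F1I.Cov ⟨0, 255, 170, 255, 401408, 3211264, (-64), 64⟩ :=
  Fmt7.Cov.sp 1806336 (Fmt7.Cov.sp 1103872 c14_0 c14_1) c14_2


end Vale.Agent.P211.H626.Tr1I
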