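import Vale.Agent.P211.H626.D.F1II

set_option linter.all false

/-! P211 (helper345): covered boxes, vertex 1, chart II, part 1 -/

namespace Vale.Agent.P211.H626.Tr1II

open Vale.Agent.P211.H237 Vale.Agent.P211.H626

def c9 : F1II.Cov ⟨335, 447, 127, 239, 19114, 57344, 0, 1024⟩ :=
  F1II.cov hV1II (.cl (.sp 38229 (.lf 7) (.lf 7))) _ (by decide +kernel)


def c10 : F1II.Cov ⟨223, 279, 239, 255, 0, 57344, 0, 1024⟩ :=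
  F1II.cov hV1II (.sy 247 (.cl (.sp 14336 (.sp 2389 (.lf 18) (.lf 18)) (.lf 18))) (.cl (.ex 0))) _ (by decide +kernel)


def c11_0 : F1II.Cov ⟨279, 335, 239, 255, 0, 99, 0, 1024⟩ :=
  F1II.cov hV1II (.cl (.sp 24 (.sp 12 (.lf 18) (.lf 18)) (.lf 18))) _ (by decide +kernel)

def c11_1 : F1II.Cov ⟨279, 335, 239, 255, 99, 398, 0, 1024⟩ :=
  F1II.cov hV1II (.cl (.lf 18)) _ (by decide +kernel)

def c11_2 : F1II.Cov ⟨279, 335, 239, 255, 398, 1592, 0, 1024⟩ :=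
  F1II.cov hV1II (.cl (.lf 18)) _ (by decide +kernel)

def c11_3 : F1II.Cov ⟨279, 335, 239, 255, 1592, 6371, 0, 1024⟩ :=
  F1II.cov hV1II (.cl (.sp 3981 (.lf 18) (.lf 18))) _ (by decide +kernel)

def c11_4 : F1II.Cov ⟨279, 335, 239, 255, 6371, 19114, 0, 1024⟩ :=
  F1II.cov hV1II (.cl (.lf 18)) _ (by decide +kernel)

theorem c11 : F1II.Cov ⟨279, 335, 239, 255, 0, 19114, 0, 1024⟩ :=
  Fmt7.Cov.sp 6371 (Fmt7.Cov.sp 1592 (Fmt7.Cov.sp 398 (Fmt7.Cov.sp 99 c11_0 c11_1) c11_2) c11_3) c11_4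


def c12 : F1II.Cov ⟨279, 335, 239, 255, 19114, 57344, 0, 1024⟩ :=
  F1II.cov hV1II (.cl (.lf 18)) _ (by decide +kernel)


def c13_0 : F1II.Cov ⟨335, 447, 239, 255, 0, 3185, 0, 1024⟩ :=
  F1II.cov hV1II (.cl (.sp 530 (.lf 18) (.lf 18))) _ (by decide +kernel)

def c13_1 : F1II.Cov ⟨335, 447, 239, 255, 3185, 9557, 0, 1024⟩ :=
  F1II.cov hV1II (.cl (.sp 6371 (.lf 18) (.lf 18))) _ (by decide +kernel)

def c13_2 : F1II.Cov ⟨335, 447, 239, 255, 9557, 28672, 0, 1024⟩ :=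
  F1II.cov hV1II (.cl (.lf 18)) _ (by decide +kernel)

def c13_3 : F1II.Cov ⟨335, 447, 239, 255, 28672, 57344, 0, 1024⟩ :=
  F1II.cov hV1II (.cl (.lf 18)) _ (by decide +kernel)

theorem c13 : F1II.Cov ⟨335, 447, 239, 255, 0, 57344, 0, 1024⟩ :=
  Fmt7.Cov.sp 28672 (Fmt7.Cov.sp 9557 (Fmt7.Cov.sp 3185 c13_0 c13_1) c13_2) c13_3


def c14_0 : F1II.Cov ⟨0, 447, 127, 223, 57344, 65536, 0, 1024⟩ :=
  F1II.cov hV1II (.sx 223 (.cl (.lf 7)) (.cl (.lf 7))) _ (by decide +kernel)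

def c14_1 : F1II.Cov ⟨0, 223, 223, 255, 57344, 65536, 0, 1024⟩ :=
  F1II.cov hV1II (.sx 111 (.cl (.lf 15)) (.cl (.lf 15))) _ (by decide +kernel)

def c14_2 : F1II.Cov ⟨223, 335, 223, 255, 57344, 65536, 0, 1024⟩ :=
  F1II.cov hV1II (.sy 247 (.cl (.lf 15)) (.sx 279 (.cl (.ex 0)) (.cl (.lf 19)))) _ (by decide +kernel)

def c14_3 : F1II.Cov ⟨335, 447, 223, 255, 57344, 65536, 0, 1024⟩ :=
  F1II.cov hV1II (.cl (.lf 15)) _ (by decide +kernel)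

theorem c14 : F1II.Cov ⟨0, 447, 127, 255, 57344, 65536, 0, 1024⟩ :=
  Fmt7.Cov.sy 223 c14_0 (Fmt7.Cov.sx 223 c14_1 (Fmt7.Cov.sx 335 c14_2 c14_3))


def c15_0 : F1II.Cov ⟨447, 510, 127, 213, 0, 2730, 0, 1024⟩ :=
  F1II.cov hV1II (.cl (.lf 7)) _ (by decide +kernel)

def c15_1 : F1II.Cov ⟨447, 510, 127, 213, 2730, 8192, 0, 1024⟩ :=
  F1II.cov hV1II (.cl (.sp 4729 (.lf 7) (.sk 512 (.lf 14) (.lf 9)))) _ (by decide +kernel)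

def c15_2 : F1II.Cov ⟨447, 510, 213, 255, 0, 8192, 0, 1024⟩ :=
  F1II.cov hV1II (.cl (.sp 5462 (.lf 14) (.lf 14))) _ (by decide +kernel)

theorem c15 : F1II.Cov ⟨447, 510, 127, 255, 0, 8192, 0, 1024⟩ :=
  Fmt7.Cov.sy 213 (Fmt7.Cov.sp 2730 c15_0 c15_1) c15_2


def c16 : F1II.Cov ⟨447, 495, 127, 159, 8192, 65536, 0, 1024⟩ :=
  F1II.cov hV1II (.cl (.sp 36864 (.sp 22528 (.lf 7) (.lf 7)) (.ex 1))) _ (by decide +kernel)


end Vale.Agent.P211.H626.Tr1II
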