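import Vale.Agent.P211.H626.D.F1II

set_option linter.all false

/-! P211 (helper345): covered boxes, vertex 1, chart II, part 2 -/

namespace Vale.Agent.P211.H626.Tr1II

open Vale.Agent.P211.H237 Vale.Agent.P211.H626

def c17_0 : F1II.Cov ⟨447, 495, 159, 255, 8192, 15360, 0, 1024⟩ :=
  F1II.cov hV1II (.sy 207 (.cl (.lf 10)) (.cl (.sp 11776 (.lf 13) (.lf 13)))) _ (by decide +kernel)

def c17_1 : F1II.Cov ⟨447, 495, 159, 207, 15360, 65536, 0, 1024⟩ :=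
  F1II.cov hV1II (.sp 40448 (.cl (.lf 10)) (.sy 183 (.cl (.ex 1)) (.cl (.sp 52992 (.lf 11) (.ex 1))))) _ (by decide +kernel)

def c17_2 : F1II.Cov ⟨447, 495, 207, 255, 15360, 65536, 0, 1024⟩ :=
  F1II.cov hV1II (.cl (.lf 13)) _ (by decide +kernel)

theorem c17 : F1II.Cov ⟨447, 495, 159, 255, 8192, 65536, 0, 1024⟩ :=
  Fmt7.Cov.sp 15360 c17_0 (Fmt7.Cov.sy 207 c17_1 c17_2)


def c18 : F1II.Cov ⟨495, 510, 127, 255, 8192, 15360, 0, 1024⟩ :=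
  F1II.cov hV1II (.sy 191 (.cl (.lf 7)) (.cl (.lf 11))) _ (by decide +kernel)


def c19 : F1II.Cov ⟨495, 510, 127, 143, 15360, 65536, 0, 1024⟩ :=
  F1II.cov hV1II (.cl (.sp 40448 (.sp 27904 (.lf 7) (.ex 1)) (.ex 1))) _ (by decide +kernel)


def c20 : F1II.Cov ⟨495, 510, 143, 155, 15360, 65536, 0, 1024⟩ :=
  F1II.cov hV1II (.cl (.sp 40448 (.sp 27904 (.lf 10) (.sp 34176 (.sp 31040 (.sk 512 (.ex 1) (.lf 10)) (.ex 1)) (.ex 1))) (.ex 1))) _ (by decide +kernel)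


def c21 : F1II.Cov ⟨495, 510, 155, 191, 15360, 27904, 0, 1024⟩ :=
  F1II.cov hV1II (.cl (.lf 10)) _ (by decide +kernel)


def c22_0 : F1II.Cov ⟨495, 502, 155, 191, 27904, 34176, 0, 256⟩ :=
  F1II.cov hV1II (.cl (.lf 28)) _ (by decide +kernel)

def c22_1 : F1II.Cov ⟨502, 510, 155, 191, 27904, 30881, 0, 128⟩ :=
  F1II.cov hV1II (.sy 173 (.cl (.sp 29392 (.sp 28648 (.lf 54) (.ex 1)) (.ex 1))) (.cl (.lf 69))) _ (by decide +kernel)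

def c22_2 : F1II.Cov ⟨502, 510, 155, 191, 27904, 30881, 128, 256⟩ :=
  F1II.cov hV1II (.sy 173 (.cl (.sp 29392 (.lf 28) (.ex 1))) (.cl (.lf 35))) _ (by decide +kernel)

def c22_3 : F1II.Cov ⟨502, 510, 155, 191, 30881, 34176, 0, 256⟩ :=
  F1II.cov hV1II (.sy 173 (.cl (.ex 1)) (.sy 182 (.cl (.ex 1)) (.cl (.lf 39)))) _ (by decide +kernel)

def c22_4 : F1II.Cov ⟨495, 510, 155, 191, 34176, 40448, 0, 256⟩ :=
  F1II.cov hV1II (.cl (.ex 1)) _ (by decide +kernel)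

theorem c22 : F1II.Cov ⟨495, 510, 155, 191, 27904, 40448, 0, 256⟩ :=
  Fmt7.Cov.sp 34176 (Fmt7.Cov.sx 502 c22_0 (Fmt7.Cov.sp 30881 (Fmt7.Cov.sk 128 c22_1 c22_2) c22_3)) c22_4


def c23_0 : F1II.Cov ⟨495, 507, 155, 191, 27904, 33596, 256, 1024⟩ :=
  F1II.cov hV1II (.sp 32173 (.cl (.lf 10)) (.sy 173 (.cl (.ex 1)) (.cl (.lf 10)))) _ (by decide +kernel)

def c23_1 : F1II.Cov ⟨495, 507, 155, 191, 33596, 40448, 256, 1024⟩ :=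
  F1II.cov hV1II (.sy 173 (.cl (.ex 1)) (.sy 182 (.cl (.ex 1)) (.cl (.sp 37022 (.lf 11) (.ex 1))))) _ (by decide +kernel)

theorem c23 : F1II.Cov ⟨495, 507, 155, 191, 27904, 40448, 256, 1024⟩ :=
  Fmt7.Cov.sp 33596 c23_0 c23_1


def c24_0 : F1II.Cov ⟨507, 510, 155, 173, 27904, 40448, 256, 1024⟩ :=
  F1II.cov hV1II (.sx 508 (.cl (.sp 34176 (.sp 31040 (.lf 10) (.ex 1)) (.ex 1))) (.cl (.sp 34176 (.sp 31040 (.sk 640 (.sp 29472 (.lf 13) (.ex 1)) (.lf 10)) (.ex 1)) (.ex 1)))) _ (by decide +kernel)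

def c24_1 : F1II.Cov ⟨507, 510, 173, 191, 27904, 40448, 256, 1024⟩ :=
  F1II.cov hV1II (.sy 182 (.cl (.sp 34176 (.sp 31040 (.lf 10) (.sp 32608 (.sk 640 (.ex 1) (.lf 10)) (.ex 1))) (.ex 1))) (.cl (.sp 34176 (.lf 11) (.ex 1)))) _ (by decide +kernel)

theorem c24 : F1II.Cov ⟨507, 510, 155, 191, 27904, 40448, 256, 1024⟩ :=
  Fmt7.Cov.sy 173 c24_0 c24_1


def c25 : F1II.Cov ⟨495, 510, 155, 191, 40448, 65536, 0, 1024⟩ :=
  F1II.cov hV1II (.cl (.ex 1)) _ (by decide +kernel)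


def c26 : F1II.Cov ⟨495, 510, 191, 255, 15360, 65536, 0, 1024⟩ :=
  F1II.cov hV1II (.sy 207 (.cl (.sp 40448 (.lf 11) (.ex 1))) (.cl (.sp 40448 (.lf 13) (.lf 13)))) _ (by decide +kernel)


end Vale.Agent.P211.H626.Tr1II
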