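import Vale.Agent.P211.Tr.V1II_0
import Vale.Agent.P211.Tr.V1II_1
import Vale.Agent.P211.Tr.V1II_2

set_option linter.all false

/-! P211 (helper345): covered boxes, vertex 1, chart II -/

namespace Vale.Agent.P211.H626.Tr1II

open Vale.Agent.P211.H237 Vale.Agent.P211.H626

theorem g0 : F1II.Cov ⟨0, 168, 127, 255, 0, 2389, 0, 1024⟩ := Fmt7.Cov.sp 298 c0 c1
theorem g1 : F1II.Cov ⟨0, 168, 127, 255, 0, 7168, 0, 1024⟩ := Fmt7.Cov.sp 2389 g0 c2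
theorem g2 : F1II.Cov ⟨0, 168, 127, 255, 0, 57344, 0, 1024⟩ := Fmt7.Cov.sp 7168 g1 c3
theorem g3 : F1II.Cov ⟨168, 223, 127, 255, 0, 14336, 0, 1024⟩ := Fmt7.Cov.sp 4778 c4 c5
theorem g4 : F1II.Cov ⟨168, 223, 127, 255, 0, 57344, 0, 1024⟩ := Fmt7.Cov.sp 14336 g3 c6
theorem g5 : F1II.Cov ⟨0, 223, 127, 255, 0, 57344, 0, 1024⟩ := Fmt7.Cov.sx 168 g2 g4
theorem g6 : F1II.Cov ⟨335, 447, 127, 239, 0, 57344, 0, 1024⟩ := Fmt7.Cov.sp 19114 c8 c9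
theorem g7 : F1II.Cov ⟨223, 447, 127, 239, 0, 57344, 0, 1024⟩ := Fmt7.Cov.sx 335 c7 g6
theorem g8 : F1II.Cov ⟨279, 335, 239, 255, 0, 57344, 0, 1024⟩ := Fmt7.Cov.sp 19114 c11 c12
theorem g9 : F1II.Cov ⟨223, 335, 239, 255, 0, 57344, 0, 1024⟩ := Fmt7.Cov.sx 279 c10 g8
theorem g10 : F1II.Cov ⟨223, 447, 239, 255, 0, 57344, 0, 1024⟩ := Fmt7.Cov.sx 335 g9 c13
theorem g11 : F1II.Cov ⟨223, 447, 127, 255, 0, 57344, 0, 1024⟩ := Fmt7.Cov.sy 239 g7 g10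
theorem g12 : F1II.Cov ⟨0, 447, 127, 255, 0, 57344, 0, 1024⟩ := Fmt7.Cov.sx 223 g5 g11
theorem g13 : F1II.Cov ⟨0, 447, 127, 255, 0, 65536, 0, 1024⟩ := Fmt7.Cov.sp 57344 g12 c14
theorem g14 : F1II.Cov ⟨447, 495, 127, 255, 8192, 65536, 0, 1024⟩ := Fmt7.Cov.sy 159 c16 c17
theorem g15 : F1II.Cov ⟨495, 510, 155, 191, 27904, 40448, 256, 1024⟩ := Fmt7.Cov.sx 507 c23 c24
theorem g16 : F1II.Cov ⟨495, 510, 155, 191, 27904, 40448, 0, 1024⟩ := Fmt7.Cov.sk 256 c22 g15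
theorem g17 : F1II.Cov ⟨495, 510, 155, 191, 15360, 40448, 0, 1024⟩ := Fmt7.Cov.sp 27904 c21 g16
theorem g18 : F1II.Cov ⟨495, 510, 155, 191, 15360, 65536, 0, 1024⟩ := Fmt7.Cov.sp 40448 g17 c25
theorem g19 : F1II.Cov ⟨495, 510, 143, 191, 15360, 65536, 0, 1024⟩ := Fmt7.Cov.sy 155 c20 g18
theorem g20 : F1II.Cov ⟨495, 510, 127, 191, 15360, 65536, 0, 1024⟩ := Fmt7.Cov.sy 143 c19 g19
theorem g21 : F1II.Cov ⟨495, 510, 127, 255, 15360, 65536, 0, 1024⟩ := Fmt7.Cov.sy 191 g20 c26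
theorem g22 : F1II.Cov ⟨495, 510, 127, 255, 8192, 65536, 0, 1024⟩ := Fmt7.Cov.sp 15360 c18 g21
theorem g23 : F1II.Cov ⟨447, 510, 127, 255, 8192, 65536, 0, 1024⟩ := Fmt7.Cov.sx 495 g14 g22
theorem g24 : F1II.Cov ⟨447, 510, 127, 255, 0, 65536, 0, 1024⟩ := Fmt7.Cov.sp 8192 c15 g23
theorem g25 : F1II.Cov ⟨0, 510, 127, 255, 0, 65536, 0, 1024⟩ := Fmt7.Cov.sx 447 g13 g24

end Vale.Agent.P211.H626.Tr1II

namespace Vale.Agent.P211.H626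

open Vale.Agent.P211.H237

theorem cov1II : F1II.Cov ⟨0, 510, 127, 255, 0, 65536, 0, 1024⟩ := Tr1II.g25

end Vale.Agent.P211.H626
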