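import Vale.Agent.P211.Tr.V2C_0

set_option linter.all false

/-! P211 (helper345): covered boxes, vertex 2, chart C -/

namespace Vale.Agent.P211.H626.Tr2C

open Vale.Agent.P211.H237 Vale.Agent.P211.H626


end Vale.Agent.P211.H626.Tr2C

namespace Vale.Agent.P211.H626

open Vale.Agent.P211.H237

theorem cov2C : F2C.Cov ⟨0, 256, (-511), 511, 0, 65536, 0, 1280⟩ := Tr2C.c0

end Vale.Agent.P211.H626
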