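import Vale.Agent.P211.Tr.V2I_0

set_option linter.all false

/-! P211 (helper345): covered boxes, vertex 2, chart I -/

namespace Vale.Agent.P211.H626.Tr2I

open Vale.Agent.P211.H237 Vale.Agent.P211.H626

theorem g0 : F2I.Cov ⟨0, 255, 0, 85, 0, 6607, (-64), 64⟩ := Fmt7.Cov.sy 21 c0 c1
theorem g1 : F2I.Cov ⟨0, 255, 0, 255, 0, 6607, (-64), 64⟩ := Fmt7.Cov.sy 85 g0 c2
theorem g2 : F2I.Cov ⟨0, 255, 0, 255, 0, 26430, (-64), 64⟩ := Fmt7.Cov.sp 6607 g1 c3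
theorem g3 : F2I.Cov ⟨0, 255, 0, 255, 0, 79290, (-64), 64⟩ := Fmt7.Cov.sp 26430 g2 c4
theorem g4 : F2I.Cov ⟨0, 255, 0, 255, 0, 237871, (-64), 64⟩ := Fmt7.Cov.sp 79290 g3 c5
theorem g5 : F2I.Cov ⟨0, 255, 0, 255, 0, 713614, (-64), 64⟩ := Fmt7.Cov.sp 237871 g4 c6
theorem g6 : F2I.Cov ⟨0, 255, 0, 255, 0, 2140843, (-64), 64⟩ := Fmt7.Cov.sp 713614 g5 c7
theorem g7 : F2I.Cov ⟨0, 255, 0, 255, 0, 3211264, (-64), 64⟩ := Fmt7.Cov.sp 2140843 g6 c8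

end Vale.Agent.P211.H626.Tr2I

namespace Vale.Agent.P211.H626

open Vale.Agent.P211.H237

theorem cov2I : F2I.Cov ⟨0, 255, 0, 255, 0, 3211264, (-64), 64⟩ := Tr2I.g7

end Vale.Agent.P211.H626
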