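import Vale.Agent.P211.H626.D.F2II

set_option linter.all false

/-! P211 (helper345): covered boxes, vertex 2, chart II, part 1 -/

namespace Vale.Agent.P211.H626.Tr2II

open Vale.Agent.P211.H237 Vale.Agent.P211.H626

def c11_0 : F2II.Cov ⟨506, 510, 191, 196, 30720, 36864, 341, 1024⟩ :=
  F2II.cov hV2II (.sy 192 (.cl (.sp 33792 (.lf 11) (.ex 1))) (.cl (.sp 33792 (.lf 11) (.sp 35328 (.sp 34560 (.lf 11) (.ex 1)) (.ex 1))))) _ (by decide +kernel)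

def c11_1 : F2II.Cov ⟨506, 510, 196, 213, 30720, 36864, 341, 1024⟩ :=
  F2II.cov hV2II (.cl (.lf 12)) _ (by decide +kernel)

theorem c11 : F2II.Cov ⟨506, 510, 191, 213, 30720, 36864, 341, 1024⟩ :=
  Fmt7.Cov.sy 196 c11_0 c11_1


def c12_0 : F2II.Cov ⟨495, 510, 170, 191, 36864, 40960, 0, 1024⟩ :=
  F2II.cov hV2II (.cl (.ex 1)) _ (by decide +kernel)

def c12_1 : F2II.Cov ⟨495, 510, 191, 213, 36864, 40960, 0, 1024⟩ :=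
  F2II.cov hV2II (.sx 502 (.cl (.lf 11)) (.sy 202 (.cl (.ex 1)) (.cl (.lf 13)))) _ (by decide +kernel)

def c12_2 : F2II.Cov ⟨495, 510, 170, 213, 40960, 49152, 0, 1024⟩ :=
  F2II.cov hV2II (.cl (.ex 1)) _ (by decide +kernel)

theorem c12 : F2II.Cov ⟨495, 510, 170, 213, 36864, 49152, 0, 1024⟩ :=
  Fmt7.Cov.sp 40960 (Fmt7.Cov.sy 191 c12_0 c12_1) c12_2


def c13 : F2II.Cov ⟨495, 510, 127, 213, 49152, 65536, 0, 1024⟩ :=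
  F2II.cov hV2II (.cl (.ex 1)) _ (by decide +kernel)


def c14_0 : F2II.Cov ⟨0, 168, 213, 255, 0, 21, 0, 1024⟩ :=
  F2II.cov hV2II (.sx 84 (.sx 42 (.cl (.lf 14)) (.cl (.lf 14))) (.cl (.lf 14))) _ (by decide +kernel)

def c14_1 : F2II.Cov ⟨0, 168, 213, 255, 21, 170, 0, 1024⟩ :=
  F2II.cov hV2II (.sx 84 (.cl (.lf 14)) (.cl (.lf 14))) _ (by decide +kernel)

def c14_2 : F2II.Cov ⟨0, 168, 213, 255, 170, 1365, 0, 1024⟩ :=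
  F2II.cov hV2II (.cl (.lf 14)) _ (by decide +kernel)

def c14_3 : F2II.Cov ⟨0, 168, 213, 255, 1365, 8192, 0, 1024⟩ :=
  F2II.cov hV2II (.cl (.lf 14)) _ (by decide +kernel)

theorem c14 : F2II.Cov ⟨0, 168, 213, 255, 0, 8192, 0, 1024⟩ :=
  Fmt7.Cov.sp 1365 (Fmt7.Cov.sp 170 (Fmt7.Cov.sp 21 c14_0 c14_1) c14_2) c14_3


def c15 : F2II.Cov ⟨168, 223, 213, 255, 0, 8192, 0, 1024⟩ :=
  F2II.cov hV2II (.cl (.sp 2730 (.lf 14) (.lf 14))) _ (by decide +kernel)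


def c16 : F2II.Cov ⟨223, 279, 213, 255, 0, 8192, 0, 1024⟩ :=
  F2II.cov hV2II (.sy 250 (.cl (.sp 2730 (.lf 14) (.lf 14))) (.cl (.ex 0))) _ (by decide +kernel)


def c17 : F2II.Cov ⟨279, 447, 213, 250, 0, 8192, 0, 1024⟩ :=
  F2II.cov hV2II (.cl (.sp 2730 (.lf 14) (.lf 14))) _ (by decide +kernel)


def c18_0 : F2II.Cov ⟨279, 363, 250, 255, 0, 170, 0, 1024⟩ :=
  F2II.cov hV2II (.cl (.lf 20)) _ (by decide +kernel)

def c18_1 : F2II.Cov ⟨363, 405, 250, 255, 0, 170, 0, 1024⟩ :=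
  F2II.cov hV2II (.sp 28 (.sx 384 (.cl (.lf 20)) (.cl (.lf 20))) (.cl (.lf 20))) _ (by decide +kernel)

def c18_2 : F2II.Cov ⟨405, 447, 250, 255, 0, 170, 0, 1024⟩ :=
  F2II.cov hV2II (.cl (.lf 20)) _ (by decide +kernel)

def c18_3 : F2II.Cov ⟨279, 447, 250, 255, 170, 1365, 0, 1024⟩ :=
  F2II.cov hV2II (.sx 363 (.cl (.lf 20)) (.cl (.lf 20))) _ (by decide +kernel)

def c18_4 : F2II.Cov ⟨279, 447, 250, 255, 1365, 8192, 0, 1024⟩ :=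
  F2II.cov hV2II (.cl (.lf 20)) _ (by decide +kernel)

theorem c18 : F2II.Cov ⟨279, 447, 250, 255, 0, 8192, 0, 1024⟩ :=
  Fmt7.Cov.sp 1365 (Fmt7.Cov.sp 170 (Fmt7.Cov.sx 363 c18_0 (Fmt7.Cov.sx 405 c18_1 c18_2)) c18_3) c18_4


def c19_0 : F2II.Cov ⟨0, 149, 213, 241, 8192, 65536, 0, 1024⟩ :=
  F2II.cov hV2II (.cl (.sp 23170 (.lf 14) (.lf 14))) _ (by decide +kernel)

def c19_1 : F2II.Cov ⟨149, 298, 213, 241, 8192, 65536, 0, 1024⟩ :=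
  F2II.cov hV2II (.cl (.sp 36864 (.lf 14) (.lf 14))) _ (by decide +kernel)

def c19_2 : F2II.Cov ⟨298, 447, 213, 241, 8192, 65536, 0, 1024⟩ :=
  F2II.cov hV2II (.cl (.sp 36864 (.lf 14) (.lf 14))) _ (by decide +kernel)

theorem c19 : F2II.Cov ⟨0, 447, 213, 241, 8192, 65536, 0, 1024⟩ :=
  Fmt7.Cov.sx 149 c19_0 (Fmt7.Cov.sx 298 c19_1 c19_2)


def c20 : F2II.Cov ⟨0, 223, 241, 255, 8192, 65536, 0, 1024⟩ :=
  F2II.cov hV2II (.cl (.sp 36864 (.sp 22528 (.lf 18) (.lf 18)) (.lf 18))) _ (by decide +kernel)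


end Vale.Agent.P211.H626.Tr2II
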