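import Vale.Agent.P211.H626.D.F2II

set_option linter.all false

/-! P211 (helper345): covered boxes, vertex 2, chart II, part 2 -/

namespace Vale.Agent.P211.H626.Tr2II

open Vale.Agent.P211.H237 Vale.Agent.P211.H626

def c21_0 : F2II.Cov ⟨223, 279, 241, 255, 8192, 65536, 0, 1024⟩ :=
  F2II.cov hV2II (.sy 248 (.cl (.sp 36864 (.lf 18) (.lf 18))) (.cl (.ex 0))) _ (by decide +kernel)

def c21_1 : F2II.Cov ⟨279, 335, 241, 255, 8192, 65536, 0, 1024⟩ :=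
  F2II.cov hV2II (.cl (.sp 36864 (.lf 18) (.lf 18))) _ (by decide +kernel)

def c21_2 : F2II.Cov ⟨335, 447, 241, 255, 8192, 65536, 0, 1024⟩ :=
  F2II.cov hV2II (.cl (.lf 18)) _ (by decide +kernel)

theorem c21 : F2II.Cov ⟨223, 447, 241, 255, 8192, 65536, 0, 1024⟩ :=
  Fmt7.Cov.sx 335 (Fmt7.Cov.sx 279 c21_0 c21_1) c21_2


def c22 : F2II.Cov ⟨447, 510, 213, 255, 0, 65536, 0, 1024⟩ :=
  F2II.cov hV2II (.cl (.sp 10922 (.sp 3640 (.lf 14) (.lf 14)) (.lf 14))) _ (by decide +kernel)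


end Vale.Agent.P211.H626.Tr2II
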