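import Vale.Agent.P211.Tr.V2II_0
import Vale.Agent.P211.Tr.V2II_1
import Vale.Agent.P211.Tr.V2II_2

set_option linter.all false

/-! P211 (helper345): covered boxes, vertex 2, chart II -/

namespace Vale.Agent.P211.H626.Tr2II

open Vale.Agent.P211.H237 Vale.Agent.P211.H626

theorem g0 : F2II.Cov ⟨0, 95, 127, 213, 0, 65536, 0, 1024⟩ := Fmt7.Cov.sp 10922 c0 c1
theorem g1 : F2II.Cov ⟨0, 383, 127, 213, 0, 65536, 0, 1024⟩ := Fmt7.Cov.sx 95 g0 c2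
theorem g2 : F2II.Cov ⟨506, 510, 170, 213, 30720, 36864, 341, 1024⟩ := Fmt7.Cov.sy 191 c10 c11
theorem g3 : F2II.Cov ⟨506, 510, 170, 213, 30720, 36864, 0, 1024⟩ := Fmt7.Cov.sk 341 c9 g2
theorem g4 : F2II.Cov ⟨502, 510, 170, 213, 30720, 36864, 0, 1024⟩ := Fmt7.Cov.sx 506 c8 g3
theorem g5 : F2II.Cov ⟨502, 510, 170, 213, 24576, 36864, 0, 1024⟩ := Fmt7.Cov.sp 30720 c7 g4
theorem g6 : F2II.Cov ⟨495, 510, 170, 213, 24576, 36864, 0, 1024⟩ := Fmt7.Cov.sx 502 c6 g5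
theorem g7 : F2II.Cov ⟨495, 510, 170, 213, 24576, 49152, 0, 1024⟩ := Fmt7.Cov.sp 36864 g6 c12
theorem g8 : F2II.Cov ⟨495, 510, 127, 213, 24576, 49152, 0, 1024⟩ := Fmt7.Cov.sy 170 c5 g7
theorem g9 : F2II.Cov ⟨495, 510, 127, 213, 0, 49152, 0, 1024⟩ := Fmt7.Cov.sp 24576 c4 g8
theorem g10 : F2II.Cov ⟨495, 510, 127, 213, 0, 65536, 0, 1024⟩ := Fmt7.Cov.sp 49152 g9 c13
theorem g11 : F2II.Cov ⟨383, 510, 127, 213, 0, 65536, 0, 1024⟩ := Fmt7.Cov.sx 495 c3 g10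
theorem g12 : F2II.Cov ⟨0, 510, 127, 213, 0, 65536, 0, 1024⟩ := Fmt7.Cov.sx 383 g1 g11
theorem g13 : F2II.Cov ⟨0, 223, 213, 255, 0, 8192, 0, 1024⟩ := Fmt7.Cov.sx 168 c14 c15
theorem g14 : F2II.Cov ⟨279, 447, 213, 255, 0, 8192, 0, 1024⟩ := Fmt7.Cov.sy 250 c17 c18
theorem g15 : F2II.Cov ⟨223, 447, 213, 255, 0, 8192, 0, 1024⟩ := Fmt7.Cov.sx 279 c16 g14
theorem g16 : F2II.Cov ⟨0, 447, 213, 255, 0, 8192, 0, 1024⟩ := Fmt7.Cov.sx 223 g13 g15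
theorem g17 : F2II.Cov ⟨0, 447, 241, 255, 8192, 65536, 0, 1024⟩ := Fmt7.Cov.sx 223 c20 c21
theorem g18 : F2II.Cov ⟨0, 447, 213, 255, 8192, 65536, 0, 1024⟩ := Fmt7.Cov.sy 241 c19 g17
theorem g19 : F2II.Cov ⟨0, 447, 213, 255, 0, 65536, 0, 1024⟩ := Fmt7.Cov.sp 8192 g16 g18
theorem g20 : F2II.Cov ⟨0, 510, 213, 255, 0, 65536, 0, 1024⟩ := Fmt7.Cov.sx 447 g19 c22
theorem g21 : F2II.Cov ⟨0, 510, 127, 255, 0, 65536, 0, 1024⟩ := Fmt7.Cov.sy 213 g12 g20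

end Vale.Agent.P211.H626.Tr2II

namespace Vale.Agent.P211.H626

open Vale.Agent.P211.H237

theorem cov2II : F2II.Cov ⟨0, 510, 127, 255, 0, 65536, 0, 1024⟩ := Tr2II.g21

end Vale.Agent.P211.H626
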