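import Vale.Agent.P211.H626.D.F0C

set_option linter.all false

/-! P211 (helper345): covered boxes, vertex 0, chart C, part 0 -/

namespace Vale.Agent.P211.H626.Tr0C

open Vale.Agent.P211.H237 Vale.Agent.P211.H626

def c0_0 : F0C.Cov ⟨0, 256, (-511), 384, 0, 341, 0, 1280⟩ :=
  F0C.cov hV0C (.cl (.sp 85 (.sp 42 (.lf 447) (.lf 447)) (.lf 447))) _ (by decide +kernel)

def c0_1 : F0C.Cov ⟨0, 256, (-511), 384, 341, 682, 0, 1280⟩ :=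
  F0C.cov hV0C (.cl (.lf 447)) _ (by decide +kernel)

def c0_2 : F0C.Cov ⟨0, 256, (-511), 384, 682, 1365, 0, 1280⟩ :=
  F0C.cov hV0C (.cl (.lf 447)) _ (by decide +kernel)

def c0_3 : F0C.Cov ⟨0, 256, (-511), 384, 1365, 2730, 0, 1280⟩ :=
  F0C.cov hV0C (.cl (.lf 447)) _ (by decide +kernel)

def c0_4 : F0C.Cov ⟨0, 256, (-511), 384, 2730, 5461, 0, 1280⟩ :=
  F0C.cov hV0C (.cl (.lf 447)) _ (by decide +kernel)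

def c0_5 : F0C.Cov ⟨0, 256, (-511), 384, 5461, 16384, 0, 1280⟩ :=
  F0C.cov hV0C (.cl (.lf 447)) _ (by decide +kernel)

theorem c0 : F0C.Cov ⟨0, 256, (-511), 384, 0, 16384, 0, 1280⟩ :=
  Fmt7.Cov.sp 5461 (Fmt7.Cov.sp 2730 (Fmt7.Cov.sp 1365 (Fmt7.Cov.sp 682 (Fmt7.Cov.sp 341 c0_0 c0_1) c0_2) c0_3) c0_4) c0_5


def c1 : F0C.Cov ⟨0, 256, (-511), 384, 16384, 65536, 0, 1280⟩ :=
  F0C.cov hV0C (.cl (.lf 447)) _ (by decide +kernel)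


def c2_0 : F0C.Cov ⟨0, 256, 384, 469, 0, 21845, 0, 160⟩ :=
  F0C.cov hV0C (.cl (.sp 7281 (.sp 2427 (.lf 3583) (.lf 3583)) (.lf 3583))) _ (by decide +kernel)

def c2_1 : F0C.Cov ⟨0, 256, 384, 469, 21845, 65536, 0, 160⟩ :=
  F0C.cov hV0C (.cl (.lf 3583)) _ (by decide +kernel)

def c2_2 : F0C.Cov ⟨0, 256, 384, 469, 0, 65536, 160, 1280⟩ :=
  F0C.cov hV0C (.cl (.ex 0)) _ (by decide +kernel)

theorem c2 : F0C.Cov ⟨0, 256, 384, 469, 0, 65536, 0, 1280⟩ :=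
  Fmt7.Cov.sk 160 (Fmt7.Cov.sp 21845 c2_0 c2_1) c2_2


def c3_0 : F0C.Cov ⟨0, 256, 469, 511, 0, 2427, 0, 20⟩ :=
  F0C.cov hV0C (.cl (.sp 1213 (.sp 303 (.lf 28671) (.lf 28671)) (.lf 28671))) _ (by decide +kernel)

def c3_1 : F0C.Cov ⟨0, 256, 469, 511, 2427, 7281, 0, 20⟩ :=
  F0C.cov hV0C (.cl (.sp 4854 (.lf 28671) (.lf 28671))) _ (by decide +kernel)

def c3_2 : F0C.Cov ⟨0, 256, 469, 511, 7281, 21845, 0, 20⟩ :=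
  F0C.cov hV0C (.cl (.lf 28671)) _ (by decide +kernel)

def c3_3 : F0C.Cov ⟨0, 256, 469, 511, 21845, 65536, 0, 20⟩ :=
  F0C.cov hV0C (.cl (.lf 28671)) _ (by decide +kernel)

def c3_4 : F0C.Cov ⟨0, 256, 469, 511, 0, 65536, 20, 160⟩ :=
  F0C.cov hV0C (.cl (.ex 0)) _ (by decide +kernel)

def c3_5 : F0C.Cov ⟨0, 256, 469, 511, 0, 65536, 160, 1280⟩ :=
  F0C.cov hV0C (.cl (.ex 0)) _ (by decide +kernel)

theorem c3 : F0C.Cov ⟨0, 256, 469, 511, 0, 65536, 0, 1280⟩ :=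
  Fmt7.Cov.sk 160 (Fmt7.Cov.sk 20 (Fmt7.Cov.sp 21845 (Fmt7.Cov.sp 7281 (Fmt7.Cov.sp 2427 c3_0 c3_1) c3_2) c3_3) c3_4) c3_5


end Vale.Agent.P211.H626.Tr0C
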