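import Vale.Agent.P211.H626.D.F0II

set_option linter.all false

/-! P211 (helper345): covered boxes, vertex 0, chart II, part 0 -/

namespace Vale.Agent.P211.H626.Tr0II

open Vale.Agent.P211.H237 Vale.Agent.P211.H626

def c0_0 : F0II.Cov ⟨0, 149, 127, 223, 0, 56, 0, 1024⟩ :=
  F0II.cov hV0II (.sx 74 (.cl (.lf 7)) (.cl (.lf 7))) _ (by decide +kernel)

def c0_1 : F0II.Cov ⟨0, 149, 127, 223, 56, 455, 0, 1024⟩ :=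
  F0II.cov hV0II (.cl (.sp 255 (.sp 155 (.lf 7) (.lf 7)) (.lf 7))) _ (by decide +kernel)

def c0_2 : F0II.Cov ⟨0, 149, 127, 223, 455, 1820, 0, 1024⟩ :=
  F0II.cov hV0II (.cl (.sp 1137 (.lf 7) (.lf 7))) _ (by decide +kernel)

theorem c0 : F0II.Cov ⟨0, 149, 127, 223, 0, 1820, 0, 1024⟩ :=
  Fmt7.Cov.sp 455 (Fmt7.Cov.sp 56 c0_0 c0_1) c0_2


def c1 : F0II.Cov ⟨0, 149, 127, 223, 1820, 10922, 0, 1024⟩ :=
  F0II.cov hV0II (.cl (.sp 6371 (.lf 7) (.lf 7))) _ (by decide +kernel)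


def c2 : F0II.Cov ⟨0, 149, 127, 223, 10922, 65536, 0, 1024⟩ :=
  F0II.cov hV0II (.cl (.sp 29126 (.lf 7) (.lf 7))) _ (by decide +kernel)


def c3_0 : F0II.Cov ⟨149, 298, 127, 223, 0, 606, 0, 1024⟩ :=
  F0II.cov hV0II (.cl (.sp 303 (.sp 151 (.lf 7) (.lf 7)) (.lf 7))) _ (by decide +kernel)

def c3_1 : F0II.Cov ⟨149, 298, 127, 223, 606, 1213, 0, 1024⟩ :=
  F0II.cov hV0II (.cl (.lf 7)) _ (by decide +kernel)

def c3_2 : F0II.Cov ⟨149, 298, 127, 223, 1213, 2427, 0, 1024⟩ :=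
  F0II.cov hV0II (.cl (.lf 7)) _ (by decide +kernel)

def c3_3 : F0II.Cov ⟨149, 298, 127, 223, 2427, 7281, 0, 1024⟩ :=
  F0II.cov hV0II (.cl (.lf 7)) _ (by decide +kernel)

def c3_4 : F0II.Cov ⟨149, 298, 127, 223, 7281, 21845, 0, 1024⟩ :=
  F0II.cov hV0II (.cl (.lf 7)) _ (by decide +kernel)

def c3_5 : F0II.Cov ⟨149, 298, 127, 223, 21845, 65536, 0, 1024⟩ :=
  F0II.cov hV0II (.cl (.lf 7)) _ (by decide +kernel)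

theorem c3 : F0II.Cov ⟨149, 298, 127, 223, 0, 65536, 0, 1024⟩ :=
  Fmt7.Cov.sp 21845 (Fmt7.Cov.sp 7281 (Fmt7.Cov.sp 2427 (Fmt7.Cov.sp 1213 (Fmt7.Cov.sp 606 c3_0 c3_1) c3_2) c3_3) c3_4) c3_5


def c4_0 : F0II.Cov ⟨298, 447, 127, 223, 0, 2427, 0, 1024⟩ :=
  F0II.cov hV0II (.cl (.sp 809 (.lf 7) (.lf 7))) _ (by decide +kernel)

def c4_1 : F0II.Cov ⟨298, 447, 127, 223, 2427, 4854, 0, 1024⟩ :=
  F0II.cov hV0II (.cl (.sk 512 (.lf 14) (.lf 9))) _ (by decide +kernel)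

def c4_2 : F0II.Cov ⟨298, 447, 127, 223, 4854, 7281, 0, 1024⟩ :=
  F0II.cov hV0II (.cl (.sk 512 (.lf 14) (.lf 9))) _ (by decide +kernel)

theorem c4 : F0II.Cov ⟨298, 447, 127, 223, 0, 7281, 0, 1024⟩ :=
  Fmt7.Cov.sp 2427 c4_0 (Fmt7.Cov.sp 4854 c4_1 c4_2)


def c5_0 : F0II.Cov ⟨298, 372, 127, 223, 7281, 21845, 0, 1024⟩ :=
  F0II.cov hV0II (.cl (.lf 7)) _ (by decide +kernel)

def c5_1 : F0II.Cov ⟨372, 447, 127, 223, 7281, 21845, 0, 1024⟩ :=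
  F0II.cov hV0II (.cl (.sp 16991 (.sk 512 (.lf 14) (.lf 9)) (.lf 7))) _ (by decide +kernel)

theorem c5 : F0II.Cov ⟨298, 447, 127, 223, 7281, 21845, 0, 1024⟩ :=
  Fmt7.Cov.sx 372 c5_0 c5_1


def c6 : F0II.Cov ⟨298, 447, 127, 223, 21845, 65536, 0, 1024⟩ :=
  F0II.cov hV0II (.cl (.sp 43690 (.lf 7) (.lf 7))) _ (by decide +kernel)


def c7_0 : F0II.Cov ⟨0, 84, 223, 255, 0, 21, 0, 1024⟩ :=
  F0II.cov hV0II (.sx 42 (.cl (.lf 15)) (.cl (.lf 15))) _ (by decide +kernel)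

def c7_1 : F0II.Cov ⟨84, 168, 223, 255, 0, 21, 0, 1024⟩ :=
  F0II.cov hV0II (.cl (.sp 3 (.lf 15) (.lf 15))) _ (by decide +kernel)

def c7_2 : F0II.Cov ⟨0, 168, 223, 255, 21, 170, 0, 1024⟩ :=
  F0II.cov hV0II (.sx 84 (.cl (.lf 15)) (.cl (.lf 15))) _ (by decide +kernel)

def c7_3 : F0II.Cov ⟨0, 168, 223, 255, 170, 1365, 0, 1024⟩ :=
  F0II.cov hV0II (.cl (.sp 767 (.lf 15) (.lf 15))) _ (by decide +kernel)

theorem c7 : F0II.Cov ⟨0, 168, 223, 255, 0, 1365, 0, 1024⟩ :=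
  Fmt7.Cov.sp 170 (Fmt7.Cov.sp 21 (Fmt7.Cov.sx 84 c7_0 c7_1) c7_2) c7_3


end Vale.Agent.P211.H626.Tr0II
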