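import Vale.Agent.P211.H626.D.F0I

set_option linter.all false

/-! P211 (helper345): covered boxes, vertex 0, chart I, part 0 -/

namespace Vale.Agent.P211.H626.Tr0I

open Vale.Agent.P211.H237 Vale.Agent.P211.H626

def c0_0 : F0I.Cov ⟨0, 85, 0, 170, 0, 26430, (-64), 64⟩ :=
  F0I.cov hV0I (.cl (.sp 13215 (.sp 6607 (.lf 31) (.lf 31)) (.lf 31))) _ (by decide +kernel)

def c0_1 : F0I.Cov ⟨0, 85, 0, 170, 26430, 79290, (-64), 64⟩ :=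
  F0I.cov hV0I (.cl (.sp 52860 (.lf 31) (.lf 31))) _ (by decide +kernel)

def c0_2 : F0I.Cov ⟨0, 85, 0, 170, 79290, 237871, (-64), 64⟩ :=
  F0I.cov hV0I (.cl (.sp 158580 (.lf 31) (.lf 31))) _ (by decide +kernel)

theorem c0 : F0I.Cov ⟨0, 85, 0, 170, 0, 237871, (-64), 64⟩ :=
  Fmt7.Cov.sp 79290 (Fmt7.Cov.sp 26430 c0_0 c0_1) c0_2


def c1 : F0I.Cov ⟨0, 85, 0, 170, 237871, 713614, (-64), 64⟩ :=
  F0I.cov hV0I (.cl (.sp 475742 (.lf 31) (.lf 31))) _ (by decide +kernel)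


def c2 : F0I.Cov ⟨0, 85, 0, 170, 713614, 2140843, (-64), 64⟩ :=
  F0I.cov hV0I (.cl (.sp 1427228 (.lf 31) (.lf 31))) _ (by decide +kernel)


def c3 : F0I.Cov ⟨0, 85, 0, 170, 2140843, 3211264, (-64), 64⟩ :=
  F0I.cov hV0I (.sp 2676053 (.sx 42 (.cl (.lf 31)) (.cl (.lf 31))) (.cl (.ex 1))) _ (by decide +kernel)


def c4_0 : F0I.Cov ⟨85, 170, 0, 64, 0, 1238, (-64), 64⟩ :=
  F0I.cov hV0I (.cl (.sp 309 (.sp 154 (.lf 31) (.lf 31)) (.lf 31))) _ (by decide +kernel)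

def c4_1 : F0I.Cov ⟨85, 170, 0, 64, 1238, 2477, (-64), 64⟩ :=
  F0I.cov hV0I (.cl (.lf 31)) _ (by decide +kernel)

def c4_2 : F0I.Cov ⟨85, 170, 0, 64, 2477, 4955, (-64), 64⟩ :=
  F0I.cov hV0I (.cl (.lf 31)) _ (by decide +kernel)

def c4_3 : F0I.Cov ⟨85, 170, 0, 64, 4955, 9911, (-64), 64⟩ :=
  F0I.cov hV0I (.cl (.lf 31)) _ (by decide +kernel)

def c4_4 : F0I.Cov ⟨85, 170, 0, 64, 9911, 19822, (-64), 64⟩ :=
  F0I.cov hV0I (.cl (.lf 31)) _ (by decide +kernel)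

theorem c4 : F0I.Cov ⟨85, 170, 0, 64, 0, 19822, (-64), 64⟩ :=
  Fmt7.Cov.sp 9911 (Fmt7.Cov.sp 4955 (Fmt7.Cov.sp 2477 (Fmt7.Cov.sp 1238 c4_0 c4_1) c4_2) c4_3) c4_4


def c5_0 : F0I.Cov ⟨170, 255, 0, 64, 0, 1651, (-64), 64⟩ :=
  F0I.cov hV0I (.cl (.sp 825 (.lf 31) (.lf 31))) _ (by decide +kernel)

def c5_1 : F0I.Cov ⟨170, 255, 0, 64, 1651, 9911, (-64), 64⟩ :=
  F0I.cov hV0I (.cl (.sp 5781 (.lf 31) (.lf 31))) _ (by decide +kernel)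

def c5_2 : F0I.Cov ⟨170, 255, 0, 64, 9911, 19822, (-64), 64⟩ :=
  F0I.cov hV0I (.cl (.lf 31)) _ (by decide +kernel)

theorem c5 : F0I.Cov ⟨170, 255, 0, 64, 0, 19822, (-64), 64⟩ :=
  Fmt7.Cov.sp 9911 (Fmt7.Cov.sp 1651 c5_0 c5_1) c5_2


def c6 : F0I.Cov ⟨85, 255, 64, 128, 0, 19822, (-64), 64⟩ :=
  F0I.cov hV0I (.cl (.sp 9911 (.sp 4955 (.lf 31) (.lf 31)) (.lf 31))) _ (by decide +kernel)


def c7_0 : F0I.Cov ⟨85, 255, 0, 128, 19822, 69378, (-64), 64⟩ :=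
  F0I.cov hV0I (.cl (.sp 44600 (.sp 32211 (.lf 31) (.lf 31)) (.lf 31))) _ (by decide +kernel)

def c7_1 : F0I.Cov ⟨85, 255, 0, 128, 69378, 118935, (-64), 64⟩ :=
  F0I.cov hV0I (.cl (.lf 31)) _ (by decide +kernel)

theorem c7 : F0I.Cov ⟨85, 255, 0, 128, 19822, 118935, (-64), 64⟩ :=
  Fmt7.Cov.sp 69378 c7_0 c7_1


def c8 : F0I.Cov ⟨85, 255, 0, 128, 118935, 356807, (-64), 64⟩ :=
  F0I.cov hV0I (.cl (.sp 237871 (.lf 31) (.lf 31))) _ (by decide +kernel)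


def c9 : F0I.Cov ⟨85, 255, 0, 128, 356807, 1070421, (-64), 64⟩ :=
  F0I.cov hV0I (.cl (.sp 713614 (.lf 31) (.lf 31))) _ (by decide +kernel)


def c10 : F0I.Cov ⟨85, 255, 0, 128, 1070421, 3211264, (-64), 64⟩ :=
  F0I.cov hV0I (.cl (.sp 2140842 (.lf 31) (.lf 31))) _ (by decide +kernel)


end Vale.Agent.P211.H626.Tr0I
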