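import Vale.Agent.P211.H626.D.F1C

set_option linter.all false

/-! P211 (helper345): covered boxes, vertex 1, chart C, part 0 -/

namespace Vale.Agent.P211.H626.Tr1C

open Vale.Agent.P211.H237 Vale.Agent.P211.H626

def c0_0 : F1C.Cov ⟨0, 256, (-511), 384, 0, 455, 0, 960⟩ :=
  F1C.cov hV1C (.cl (.sp 151 (.sp 37 (.lf 597) (.lf 597)) (.lf 597))) _ (by decide +kernel)

def c0_1 : F1C.Cov ⟨0, 256, (-511), 384, 455, 910, 0, 960⟩ :=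
  F1C.cov hV1C (.cl (.lf 597)) _ (by decide +kernel)

def c0_2 : F1C.Cov ⟨0, 256, (-511), 384, 910, 1820, 0, 960⟩ :=
  F1C.cov hV1C (.cl (.lf 597)) _ (by decide +kernel)

def c0_3 : F1C.Cov ⟨0, 256, (-511), 384, 1820, 3640, 0, 960⟩ :=
  F1C.cov hV1C (.cl (.lf 597)) _ (by decide +kernel)

def c0_4 : F1C.Cov ⟨0, 256, (-511), 384, 3640, 10922, 0, 960⟩ :=
  F1C.cov hV1C (.cl (.lf 597)) _ (by decide +kernel)

def c0_5 : F1C.Cov ⟨0, 256, (-511), 384, 10922, 32768, 0, 960⟩ :=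
  F1C.cov hV1C (.cl (.lf 597)) _ (by decide +kernel)

theorem c0 : F1C.Cov ⟨0, 256, (-511), 384, 0, 32768, 0, 960⟩ :=
  Fmt7.Cov.sp 10922 (Fmt7.Cov.sp 3640 (Fmt7.Cov.sp 1820 (Fmt7.Cov.sp 910 (Fmt7.Cov.sp 455 c0_0 c0_1) c0_2) c0_3) c0_4) c0_5


def c1 : F1C.Cov ⟨0, 256, (-511), 384, 0, 32768, 960, 1280⟩ :=
  F1C.cov hV1C (.cl (.ex 0)) _ (by decide +kernel)


def c2 : F1C.Cov ⟨0, 256, (-511), 384, 32768, 65536, 0, 1280⟩ :=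
  F1C.cov hV1C (.cl (.lf 447)) _ (by decide +kernel)


def c3_0 : F1C.Cov ⟨0, 256, 384, 480, 0, 10922, 0, 1280⟩ :=
  F1C.cov hV1C (.cl (.sp 3640 (.sp 1820 (.lf 447) (.lf 447)) (.sk 640 (.lf 895) (.ex 0)))) _ (by decide +kernel)

def c3_1 : F1C.Cov ⟨0, 256, 384, 480, 10922, 65536, 0, 1280⟩ :=
  F1C.cov hV1C (.cl (.lf 447)) _ (by decide +kernel)

theorem c3 : F1C.Cov ⟨0, 256, 384, 480, 0, 65536, 0, 1280⟩ :=
  Fmt7.Cov.sp 10922 c3_0 c3_1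


def c4_0 : F1C.Cov ⟨0, 256, 480, 511, 0, 18, 0, 426⟩ :=
  F1C.cov hV1C (.sx 128 (.cl (.lf 1346)) (.cl (.lf 1346))) _ (by decide +kernel)

def c4_1 : F1C.Cov ⟨0, 256, 480, 511, 18, 151, 0, 426⟩ :=
  F1C.cov hV1C (.cl (.sp 84 (.lf 1346) (.lf 1346))) _ (by decide +kernel)

def c4_2 : F1C.Cov ⟨0, 256, 480, 511, 151, 1213, 0, 426⟩ :=
  F1C.cov hV1C (.cl (.sp 428 (.lf 1346) (.lf 1346))) _ (by decide +kernel)

theorem c4 : F1C.Cov ⟨0, 256, 480, 511, 0, 1213, 0, 426⟩ :=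
  Fmt7.Cov.sp 151 (Fmt7.Cov.sp 18 c4_0 c4_1) c4_2


def c5 : F1C.Cov ⟨0, 256, 480, 511, 1213, 7281, 0, 426⟩ :=
  F1C.cov hV1C (.cl (.sp 3235 (.sk 213 (.sk 106 (.lf 5409) (.ex 0)) (.ex 0)) (.sk 213 (.sk 106 (.sk 53 (.sp 5258 (.sk 26 (.lf 22055) (.ex 0)) (.sk 26 (.lf 22055) (.ex 0))) (.ex 0)) (.ex 0)) (.ex 0)))) _ (by decide +kernel)


def c6 : F1C.Cov ⟨0, 256, 480, 511, 7281, 21845, 0, 426⟩ :=
  F1C.cov hV1C (.cl (.sk 213 (.sk 106 (.sk 53 (.lf 10819) (.ex 0)) (.ex 0)) (.ex 0))) _ (by decide +kernel)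


def c7 : F1C.Cov ⟨0, 256, 480, 511, 21845, 65536, 0, 426⟩ :=
  F1C.cov hV1C (.cl (.lf 1346)) _ (by decide +kernel)


def c8 : F1C.Cov ⟨0, 256, 480, 511, 0, 65536, 426, 1280⟩ :=
  F1C.cov hV1C (.cl (.ex 0)) _ (by decide +kernel)


end Vale.Agent.P211.H626.Tr1C
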