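import Vale.Agent.P211.H626.D.F1II

set_option linter.all false

/-! P211 (helper345): covered boxes, vertex 1, chart II, part 0 -/

namespace Vale.Agent.P211.H626.Tr1II

open Vale.Agent.P211.H237 Vale.Agent.P211.H626

def c0_0 : F1II.Cov ⟨0, 21, 127, 255, 0, 298, 0, 1024⟩ :=
  F1II.cov hV1II (.cl (.sp 49 (.lf 7) (.lf 7))) _ (by decide +kernel)

def c0_1 : F1II.Cov ⟨21, 168, 127, 255, 0, 37, 0, 1024⟩ :=
  F1II.cov hV1II (.cl (.sp 6 (.lf 7) (.lf 7))) _ (by decide +kernel)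

def c0_2 : F1II.Cov ⟨21, 168, 127, 255, 37, 298, 0, 1024⟩ :=
  F1II.cov hV1II (.cl (.sp 167 (.sp 102 (.lf 7) (.lf 7)) (.lf 7))) _ (by decide +kernel)

theorem c0 : F1II.Cov ⟨0, 168, 127, 255, 0, 298, 0, 1024⟩ :=
  Fmt7.Cov.sx 21 c0_0 (Fmt7.Cov.sp 37 c0_1 c0_2)


def c1 : F1II.Cov ⟨0, 168, 127, 255, 298, 2389, 0, 1024⟩ :=
  F1II.cov hV1II (.cl (.sp 820 (.lf 7) (.lf 7))) _ (by decide +kernel)


def c2 : F1II.Cov ⟨0, 168, 127, 255, 2389, 7168, 0, 1024⟩ :=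
  F1II.cov hV1II (.cl (.lf 7)) _ (by decide +kernel)


def c3 : F1II.Cov ⟨0, 168, 127, 255, 7168, 57344, 0, 1024⟩ :=
  F1II.cov hV1II (.cl (.sp 32256 (.sp 15206 (.lf 7) (.lf 7)) (.lf 7))) _ (by decide +kernel)


def c4_0 : F1II.Cov ⟨168, 223, 127, 255, 0, 298, 0, 1024⟩ :=
  F1II.cov hV1II (.cl (.sp 74 (.sp 12 (.lf 7) (.lf 7)) (.lf 7))) _ (by decide +kernel)

def c4_1 : F1II.Cov ⟨168, 223, 127, 255, 298, 597, 0, 1024⟩ :=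
  F1II.cov hV1II (.cl (.lf 7)) _ (by decide +kernel)

def c4_2 : F1II.Cov ⟨168, 223, 127, 255, 597, 1194, 0, 1024⟩ :=
  F1II.cov hV1II (.cl (.lf 7)) _ (by decide +kernel)

def c4_3 : F1II.Cov ⟨168, 223, 127, 255, 1194, 2389, 0, 1024⟩ :=
  F1II.cov hV1II (.cl (.lf 7)) _ (by decide +kernel)

def c4_4 : F1II.Cov ⟨168, 223, 127, 255, 2389, 4778, 0, 1024⟩ :=
  F1II.cov hV1II (.cl (.lf 7)) _ (by decide +kernel)

theorem c4 : F1II.Cov ⟨168, 223, 127, 255, 0, 4778, 0, 1024⟩ :=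
  Fmt7.Cov.sp 2389 (Fmt7.Cov.sp 1194 (Fmt7.Cov.sp 597 (Fmt7.Cov.sp 298 c4_0 c4_1) c4_2) c4_3) c4_4


def c5 : F1II.Cov ⟨168, 223, 127, 255, 4778, 14336, 0, 1024⟩ :=
  F1II.cov hV1II (.sy 191 (.cl (.lf 7)) (.cl (.lf 11))) _ (by decide +kernel)


def c6 : F1II.Cov ⟨168, 223, 127, 255, 14336, 57344, 0, 1024⟩ :=
  F1II.cov hV1II (.sy 191 (.cl (.lf 7)) (.cl (.sp 35840 (.lf 11) (.lf 11)))) _ (by decide +kernel)


def c7_0 : F1II.Cov ⟨223, 335, 127, 239, 0, 1592, 0, 1024⟩ :=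
  F1II.cov hV1II (.cl (.sp 796 (.sp 398 (.lf 7) (.lf 7)) (.lf 7))) _ (by decide +kernel)

def c7_1 : F1II.Cov ⟨223, 335, 127, 239, 1592, 3185, 0, 1024⟩ :=
  F1II.cov hV1II (.cl (.lf 7)) _ (by decide +kernel)

def c7_2 : F1II.Cov ⟨223, 335, 127, 239, 3185, 6371, 0, 1024⟩ :=
  F1II.cov hV1II (.cl (.lf 7)) _ (by decide +kernel)

def c7_3 : F1II.Cov ⟨223, 335, 127, 239, 6371, 19114, 0, 1024⟩ :=
  F1II.cov hV1II (.cl (.lf 7)) _ (by decide +kernel)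

def c7_4 : F1II.Cov ⟨223, 335, 127, 239, 19114, 57344, 0, 1024⟩ :=
  F1II.cov hV1II (.cl (.lf 7)) _ (by decide +kernel)

theorem c7 : F1II.Cov ⟨223, 335, 127, 239, 0, 57344, 0, 1024⟩ :=
  Fmt7.Cov.sp 19114 (Fmt7.Cov.sp 6371 (Fmt7.Cov.sp 3185 (Fmt7.Cov.sp 1592 c7_0 c7_1) c7_2) c7_3) c7_4


def c8_0 : F1II.Cov ⟨335, 447, 127, 239, 0, 3185, 0, 1024⟩ :=
  F1II.cov hV1II (.cl (.sp 1592 (.sp 796 (.lf 7) (.lf 7)) (.lf 7))) _ (by decide +kernel)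

def c8_1 : F1II.Cov ⟨335, 447, 127, 239, 3185, 6371, 0, 1024⟩ :=
  F1II.cov hV1II (.cl (.sk 512 (.lf 14) (.lf 9))) _ (by decide +kernel)

def c8_2 : F1II.Cov ⟨335, 447, 127, 239, 6371, 19114, 0, 1024⟩ :=
  F1II.cov hV1II (.sp 11035 (.sy 183 (.cl (.lf 7)) (.cl (.lf 11))) (.cl (.lf 7))) _ (by decide +kernel)

theorem c8 : F1II.Cov ⟨335, 447, 127, 239, 0, 19114, 0, 1024⟩ :=
  Fmt7.Cov.sp 6371 (Fmt7.Cov.sp 3185 c8_0 c8_1) c8_2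


end Vale.Agent.P211.H626.Tr1II
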