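import Vale.Agent.P211.H626.D.F1I

set_option linter.all false

/-! P211 (helper345): covered boxes, vertex 1, chart I, part 0 -/

namespace Vale.Agent.P211.H626.Tr1I

open Vale.Agent.P211.H237 Vale.Agent.P211.H626

def c0_0 : F1I.Cov ⟨0, 63, 0, 170, 0, 14866, (-64), 64⟩ :=
  F1I.cov hV1I (.cl (.sp 7433 (.sp 1858 (.lf 31) (.lf 31)) (.lf 31))) _ (by decide +kernel)

def c0_1 : F1I.Cov ⟨0, 63, 0, 170, 14866, 29733, (-64), 64⟩ :=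
  F1I.cov hV1I (.cl (.lf 31)) _ (by decide +kernel)

def c0_2 : F1I.Cov ⟨0, 63, 0, 170, 29733, 59467, (-64), 64⟩ :=
  F1I.cov hV1I (.cl (.lf 31)) _ (by decide +kernel)

def c0_3 : F1I.Cov ⟨0, 63, 0, 170, 59467, 237871, (-64), 64⟩ :=
  F1I.cov hV1I (.cl (.sp 148669 (.lf 31) (.lf 31))) _ (by decide +kernel)

theorem c0 : F1I.Cov ⟨0, 63, 0, 170, 0, 237871, (-64), 64⟩ :=
  Fmt7.Cov.sp 59467 (Fmt7.Cov.sp 29733 (Fmt7.Cov.sp 14866 c0_0 c0_1) c0_2) c0_3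


def c1 : F1I.Cov ⟨0, 63, 0, 170, 237871, 713614, (-64), 64⟩ :=
  F1I.cov hV1I (.cl (.sp 475742 (.lf 31) (.lf 31))) _ (by decide +kernel)


def c2 : F1I.Cov ⟨0, 63, 0, 170, 713614, 2140843, (-64), 64⟩ :=
  F1I.cov hV1I (.cl (.sp 1427228 (.lf 31) (.lf 31))) _ (by decide +kernel)


def c3 : F1I.Cov ⟨0, 63, 0, 170, 2140843, 3211264, (-64), 64⟩ :=
  F1I.cov hV1I (.cl (.sp 2676053 (.lf 31) (.ex 1))) _ (by decide +kernel)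


def c4_0 : F1I.Cov ⟨63, 159, 0, 42, 0, 309, (-64), 64⟩ :=
  F1I.cov hV1I (.cl (.sp 154 (.lf 31) (.lf 31))) _ (by decide +kernel)

def c4_1 : F1I.Cov ⟨159, 255, 0, 42, 0, 309, (-64), 64⟩ :=
  F1I.cov hV1I (.cl (.sp 154 (.lf 31) (.lf 31))) _ (by decide +kernel)

def c4_2 : F1I.Cov ⟨63, 255, 0, 42, 309, 1238, (-64), 64⟩ :=
  F1I.cov hV1I (.sx 159 (.cl (.lf 31)) (.cl (.lf 31))) _ (by decide +kernel)

def c4_3 : F1I.Cov ⟨63, 255, 42, 85, 0, 1238, (-64), 64⟩ :=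
  F1I.cov hV1I (.cl (.lf 31)) _ (by decide +kernel)

theorem c4 : F1I.Cov ⟨63, 255, 0, 85, 0, 1238, (-64), 64⟩ :=
  Fmt7.Cov.sy 42 (Fmt7.Cov.sp 309 (Fmt7.Cov.sx 159 c4_0 c4_1) c4_2) c4_3


def c5 : F1I.Cov ⟨63, 255, 0, 85, 1238, 2477, (-64), 64⟩ :=
  F1I.cov hV1I (.sx 159 (.cl (.lf 31)) (.cl (.lf 31))) _ (by decide +kernel)


def c6_0 : F1I.Cov ⟨63, 255, 0, 85, 2477, 6813, (-64), 64⟩ :=
  F1I.cov hV1I (.sp 4645 (.sx 159 (.cl (.lf 31)) (.cl (.lf 31))) (.cl (.lf 31))) _ (by decide +kernel)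

def c6_1 : F1I.Cov ⟨63, 255, 0, 85, 6813, 11149, (-64), 64⟩ :=
  F1I.cov hV1I (.cl (.lf 31)) _ (by decide +kernel)

def c6_2 : F1I.Cov ⟨63, 255, 0, 85, 11149, 19822, (-64), 64⟩ :=
  F1I.cov hV1I (.cl (.lf 31)) _ (by decide +kernel)

theorem c6 : F1I.Cov ⟨63, 255, 0, 85, 2477, 19822, (-64), 64⟩ :=
  Fmt7.Cov.sp 11149 (Fmt7.Cov.sp 6813 c6_0 c6_1) c6_2


def c7 : F1I.Cov ⟨63, 255, 85, 170, 0, 19822, (-64), 64⟩ :=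
  F1I.cov hV1I (.cl (.sp 9911 (.sp 3303 (.lf 31) (.lf 31)) (.lf 31))) _ (by decide +kernel)


def c8_0 : F1I.Cov ⟨63, 255, 0, 170, 19822, 52859, (-64), 64⟩ :=
  F1I.cov hV1I (.sp 36340 (.sy 85 (.cl (.lf 31)) (.cl (.lf 31))) (.cl (.lf 31))) _ (by decide +kernel)

def c8_1 : F1I.Cov ⟨63, 255, 0, 170, 52859, 118935, (-64), 64⟩ :=
  F1I.cov hV1I (.cl (.sp 85897 (.lf 31) (.lf 31))) _ (by decide +kernel)

theorem c8 : F1I.Cov ⟨63, 255, 0, 170, 19822, 118935, (-64), 64⟩ :=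
  Fmt7.Cov.sp 52859 c8_0 c8_1


def c9 : F1I.Cov ⟨63, 255, 0, 170, 118935, 356807, (-64), 64⟩ :=
  F1I.cov hV1I (.cl (.sp 206002 (.lf 31) (.lf 31))) _ (by decide +kernel)


def c10 : F1I.Cov ⟨63, 255, 0, 170, 356807, 1070421, (-64), 64⟩ :=
  F1I.cov hV1I (.cl (.sp 618008 (.lf 31) (.lf 31))) _ (by decide +kernel)


end Vale.Agent.P211.H626.Tr1I
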