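import Vale.Agent.P211.H626.D.F2C

set_option linter.all false

/-! P211 (helper345): covered boxes, vertex 2, chart C, part 0 -/

namespace Vale.Agent.P211.H626.Tr2C

open Vale.Agent.P211.H237 Vale.Agent.P211.H626

def c0_0 : F2C.Cov ⟨0, 256, (-511), 0, 0, 65536, 0, 1280⟩ :=
  F2C.cov hV2C (.cl (.sp 21845 (.sp 7281 (.lf 447) (.lf 447)) (.lf 447))) _ (by decide +kernel)

def c0_1 : F2C.Cov ⟨0, 256, 0, 511, 0, 21845, 0, 1280⟩ :=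
  F2C.cov hV2C (.cl (.sp 7281 (.sp 2427 (.lf 447) (.lf 447)) (.lf 447))) _ (by decide +kernel)

def c0_2 : F2C.Cov ⟨0, 256, 0, 511, 21845, 65536, 0, 1280⟩ :=
  F2C.cov hV2C (.cl (.lf 447)) _ (by decide +kernel)

theorem c0 : F2C.Cov ⟨0, 256, (-511), 511, 0, 65536, 0, 1280⟩ :=
  Fmt7.Cov.sy 0 c0_0 (Fmt7.Cov.sp 21845 c0_1 c0_2)


end Vale.Agent.P211.H626.Tr2C
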