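import Vale.Agent.P211.H626.D.F2II

set_option linter.all false

/-! P211 (helper345): covered boxes, vertex 2, chart II, part 0 -/

namespace Vale.Agent.P211.H626.Tr2II

open Vale.Agent.P211.H237 Vale.Agent.P211.H626

def c0_0 : F2II.Cov ⟨0, 95, 127, 213, 0, 28, 0, 1024⟩ :=
  F2II.cov hV2II (.sp 7 (.sx 47 (.cl (.lf 7)) (.cl (.lf 7))) (.cl (.lf 7))) _ (by decide +kernel)

def c0_1 : F2II.Cov ⟨0, 95, 127, 213, 28, 227, 0, 1024⟩ :=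
  F2II.cov hV2II (.cl (.sp 127 (.lf 7) (.lf 7))) _ (by decide +kernel)

def c0_2 : F2II.Cov ⟨0, 95, 127, 213, 227, 1820, 0, 1024⟩ :=
  F2II.cov hV2II (.cl (.sp 1023 (.lf 7) (.lf 7))) _ (by decide +kernel)

def c0_3 : F2II.Cov ⟨0, 95, 127, 213, 1820, 10922, 0, 1024⟩ :=
  F2II.cov hV2II (.cl (.lf 7)) _ (by decide +kernel)

theorem c0 : F2II.Cov ⟨0, 95, 127, 213, 0, 10922, 0, 1024⟩ :=
  Fmt7.Cov.sp 1820 (Fmt7.Cov.sp 227 (Fmt7.Cov.sp 28 c0_0 c0_1) c0_2) c0_3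


def c1 : F2II.Cov ⟨0, 95, 127, 213, 10922, 65536, 0, 1024⟩ :=
  F2II.cov hV2II (.cl (.sp 38229 (.lf 7) (.lf 7))) _ (by decide +kernel)


def c2_0 : F2II.Cov ⟨95, 383, 127, 213, 0, 2427, 0, 1024⟩ :=
  F2II.cov hV2II (.cl (.sp 606 (.sp 151 (.lf 7) (.lf 7)) (.lf 7))) _ (by decide +kernel)

def c2_1 : F2II.Cov ⟨95, 383, 127, 213, 2427, 7281, 0, 1024⟩ :=
  F2II.cov hV2II (.cl (.lf 7)) _ (by decide +kernel)

def c2_2 : F2II.Cov ⟨95, 383, 127, 213, 7281, 21845, 0, 1024⟩ :=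
  F2II.cov hV2II (.cl (.lf 7)) _ (by decide +kernel)

def c2_3 : F2II.Cov ⟨95, 383, 127, 213, 21845, 65536, 0, 1024⟩ :=
  F2II.cov hV2II (.cl (.lf 7)) _ (by decide +kernel)

theorem c2 : F2II.Cov ⟨95, 383, 127, 213, 0, 65536, 0, 1024⟩ :=
  Fmt7.Cov.sp 21845 (Fmt7.Cov.sp 7281 (Fmt7.Cov.sp 2427 c2_0 c2_1) c2_2) c2_3


def c3_0 : F2II.Cov ⟨383, 495, 127, 213, 0, 14563, 0, 1024⟩ :=
  F2II.cov hV2II (.cl (.sp 4854 (.sp 2427 (.lf 7) (.lf 7)) (.lf 7))) _ (by decide +kernel)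

def c3_1 : F2II.Cov ⟨383, 495, 127, 213, 14563, 43691, 0, 1024⟩ :=
  F2II.cov hV2II (.cl (.lf 7)) _ (by decide +kernel)

def c3_2 : F2II.Cov ⟨383, 481, 127, 213, 43691, 65536, 0, 1024⟩ :=
  F2II.cov hV2II (.cl (.lf 7)) _ (by decide +kernel)

def c3_3 : F2II.Cov ⟨481, 495, 127, 213, 43691, 65536, 0, 1024⟩ :=
  F2II.cov hV2II (.sx 488 (.sx 484 (.cl (.lf 7)) (.cl (.ex 1))) (.cl (.ex 1))) _ (by decide +kernel)

theorem c3 : F2II.Cov ⟨383, 495, 127, 213, 0, 65536, 0, 1024⟩ :=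
  Fmt7.Cov.sp 43691 (Fmt7.Cov.sp 14563 c3_0 c3_1) (Fmt7.Cov.sx 481 c3_2 c3_3)


def c4 : F2II.Cov ⟨495, 510, 127, 213, 0, 24576, 0, 1024⟩ :=
  F2II.cov hV2II (.cl (.sp 8192 (.sp 2730 (.lf 7) (.lf 7)) (.lf 7))) _ (by decide +kernel)


def c5 : F2II.Cov ⟨495, 510, 127, 170, 24576, 49152, 0, 1024⟩ :=
  F2II.cov hV2II (.cl (.sp 36864 (.lf 7) (.ex 1))) _ (by decide +kernel)


def c6 : F2II.Cov ⟨495, 502, 170, 213, 24576, 36864, 0, 1024⟩ :=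
  F2II.cov hV2II (.cl (.lf 10)) _ (by decide +kernel)


def c7 : F2II.Cov ⟨502, 510, 170, 213, 24576, 30720, 0, 1024⟩ :=
  F2II.cov hV2II (.cl (.lf 10)) _ (by decide +kernel)


def c8 : F2II.Cov ⟨502, 506, 170, 213, 30720, 36864, 0, 1024⟩ :=
  F2II.cov hV2II (.sp 34816 (.cl (.lf 10)) (.sy 191 (.cl (.ex 1)) (.cl (.lf 11)))) _ (by decide +kernel)


def c9 : F2II.Cov ⟨506, 510, 170, 213, 30720, 36864, 0, 341⟩ :=
  F2II.cov hV2II (.sy 191 (.cl (.sp 33792 (.sp 32256 (.lf 26) (.ex 1)) (.ex 1))) (.sy 198 (.cl (.sp 33792 (.lf 33) (.ex 1))) (.cl (.lf 36)))) _ (by decide +kernel)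


def c10_0 : F2II.Cov ⟨506, 508, 170, 191, 30720, 33792, 341, 1024⟩ :=
  F2II.cov hV2II (.cl (.lf 10)) _ (by decide +kernel)

def c10_1 : F2II.Cov ⟨508, 510, 170, 191, 30720, 32256, 341, 1024⟩ :=
  F2II.cov hV2II (.cl (.lf 10)) _ (by decide +kernel)

def c10_2 : F2II.Cov ⟨508, 510, 170, 184, 32256, 33792, 341, 1024⟩ :=
  F2II.cov hV2II (.cl (.ex 1)) _ (by decide +kernel)

def c10_3 : F2II.Cov ⟨508, 510, 184, 185, 32256, 33792, 341, 1024⟩ :=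
  F2II.cov hV2II (.cl (.ex 1)) _ (by decide +kernel)

def c10_4 : F2II.Cov ⟨508, 510, 185, 189, 32256, 33024, 341, 682⟩ :=
  F2II.cov hV2II (.cl (.ex 1)) _ (by decide +kernel)

def c10_5 : F2II.Cov ⟨508, 510, 185, 189, 32256, 33024, 682, 1024⟩ :=
  F2II.cov hV2II (.sp 32640 (.cl (.lf 11)) (.sy 187 (.cl (.ex 1)) (.cl (.lf 11)))) _ (by decide +kernel)

def c10_6 : F2II.Cov ⟨508, 510, 185, 189, 33024, 33792, 341, 1024⟩ :=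
  F2II.cov hV2II (.cl (.ex 1)) _ (by decide +kernel)

def c10_7 : F2II.Cov ⟨508, 510, 189, 191, 32256, 33792, 341, 1024⟩ :=
  F2II.cov hV2II (.cl (.sp 33024 (.lf 11) (.sp 33408 (.lf 11) (.ex 1)))) _ (by decide +kernel)

def c10_8 : F2II.Cov ⟨506, 510, 170, 191, 33792, 36864, 341, 1024⟩ :=
  F2II.cov hV2II (.cl (.ex 1)) _ (by decide +kernel)

theorem c10 : F2II.Cov ⟨506, 510, 170, 191, 30720, 36864, 341, 1024⟩ :=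
  Fmt7.Cov.sp 33792 (Fmt7.Cov.sx 508 c10_0 (Fmt7.Cov.sp 32256 c10_1 (Fmt7.Cov.sy 184 c10_2 (Fmt7.Cov.sy 189 (Fmt7.Cov.sy 185 c10_3 (Fmt7.Cov.sp 33024 (Fmt7.Cov.sk 682 c10_4 c10_5) c10_6)) c10_7)))) c10_8


end Vale.Agent.P211.H626.Tr2II
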