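import Vale.Agent.P211.H626.D.F2I

set_option linter.all false

/-! P211 (helper345): covered boxes, vertex 2, chart I, part 0 -/

namespace Vale.Agent.P211.H626.Tr2I

open Vale.Agent.P211.H237 Vale.Agent.P211.H626

def c0_0 : F2I.Cov ⟨0, 255, 0, 21, 0, 206, (-64), 64⟩ :=
  F2I.cov hV2I (.cl (.sp 34 (.lf 31) (.lf 31))) _ (by decide +kernel)

def c0_1 : F2I.Cov ⟨0, 255, 0, 21, 206, 1651, (-64), 64⟩ :=
  F2I.cov hV2I (.cl (.sp 928 (.lf 31) (.lf 31))) _ (by decide +kernel)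

def c0_2 : F2I.Cov ⟨0, 255, 0, 21, 1651, 6607, (-64), 64⟩ :=
  F2I.cov hV2I (.cl (.lf 31)) _ (by decide +kernel)

theorem c0 : F2I.Cov ⟨0, 255, 0, 21, 0, 6607, (-64), 64⟩ :=
  Fmt7.Cov.sp 1651 (Fmt7.Cov.sp 206 c0_0 c0_1) c0_2


def c1_0 : F2I.Cov ⟨0, 255, 21, 85, 0, 3303, (-64), 64⟩ :=
  F2I.cov hV2I (.cl (.sp 1651 (.sp 412 (.lf 31) (.lf 31)) (.lf 31))) _ (by decide +kernel)

def c1_1 : F2I.Cov ⟨0, 255, 21, 85, 3303, 6607, (-64), 64⟩ :=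
  F2I.cov hV2I (.cl (.lf 31)) _ (by decide +kernel)

theorem c1 : F2I.Cov ⟨0, 255, 21, 85, 0, 6607, (-64), 64⟩ :=
  Fmt7.Cov.sp 3303 c1_0 c1_1


def c2_0 : F2I.Cov ⟨0, 127, 85, 255, 0, 2202, (-64), 64⟩ :=
  F2I.cov hV2I (.sx 63 (.cl (.sp 1101 (.lf 31) (.lf 31))) (.cl (.lf 31))) _ (by decide +kernel)

def c2_1 : F2I.Cov ⟨0, 127, 85, 255, 2202, 6607, (-64), 64⟩ :=
  F2I.cov hV2I (.cl (.lf 31)) _ (by decide +kernel)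

def c2_2 : F2I.Cov ⟨127, 255, 85, 255, 0, 6607, (-64), 64⟩ :=
  F2I.cov hV2I (.sy 170 (.cl (.lf 31)) (.cl (.lf 31))) _ (by decide +kernel)

theorem c2 : F2I.Cov ⟨0, 255, 85, 255, 0, 6607, (-64), 64⟩ :=
  Fmt7.Cov.sx 127 (Fmt7.Cov.sp 2202 c2_0 c2_1) c2_2


def c3_0 : F2I.Cov ⟨0, 255, 0, 127, 6607, 26430, (-64), 64⟩ :=
  F2I.cov hV2I (.cl (.sp 16518 (.lf 31) (.lf 31))) _ (by decide +kernel)

def c3_1 : F2I.Cov ⟨0, 255, 127, 255, 6607, 26430, (-64), 64⟩ :=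
  F2I.cov hV2I (.sx 127 (.cl (.lf 31)) (.cl (.lf 31))) _ (by decide +kernel)

theorem c3 : F2I.Cov ⟨0, 255, 0, 255, 6607, 26430, (-64), 64⟩ :=
  Fmt7.Cov.sy 127 c3_0 c3_1


def c4 : F2I.Cov ⟨0, 255, 0, 255, 26430, 79290, (-64), 64⟩ :=
  F2I.cov hV2I (.sy 127 (.cl (.lf 31)) (.cl (.lf 31))) _ (by decide +kernel)


def c5 : F2I.Cov ⟨0, 255, 0, 255, 79290, 237871, (-64), 64⟩ :=
  F2I.cov hV2I (.sy 127 (.cl (.lf 31)) (.cl (.lf 31))) _ (by decide +kernel)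


def c6 : F2I.Cov ⟨0, 255, 0, 255, 237871, 713614, (-64), 64⟩ :=
  F2I.cov hV2I (.sy 127 (.cl (.lf 31)) (.cl (.lf 31))) _ (by decide +kernel)


def c7 : F2I.Cov ⟨0, 255, 0, 255, 713614, 2140843, (-64), 64⟩ :=
  F2I.cov hV2I (.cl (.lf 31)) _ (by decide +kernel)


def c8 : F2I.Cov ⟨0, 255, 0, 255, 2140843, 3211264, (-64), 64⟩ :=
  F2I.cov hV2I (.sx 85 (.cl (.sp 2676053 (.lf 31) (.ex 1))) (.cl (.lf 31))) _ (by decide +kernel)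


end Vale.Agent.P211.H626.Tr2I
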